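import Crest.Agent.Lib.Bc.Orbit.O48C240
/-! Row 163: the means of `a` and `a²` along the grid orbit at `b = 4`, `λ = -1/2`. -/
set_option maxRecDepth 1000000
namespace Crest.Agent.Lib.Bc.GridO.O48

/-- level 240: the mean of `a` -/
theorem a240 : (leafSL 3 4 (-(1 / 2)) 240 (by norm_num) hch3).Φ (aFn 3) ≤ 1211 / 20000 := by
  have h := inv240.a_le
  have hb : sumW (numA 48) (ptsOf 48 17 ks) w240 ≤ 74897357694 := by decide +kernel
  have hb' : ((sumW (numA 48) (ptsOf 48 17 ks) w240 : ℕ) : ℝ) ≤ ((74897357694 : ℕ) : ℝ) := by exact_mod_cast hb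
  have h2 := h.trans hb'
  norm_num at h2 ⊢
  linarith

/-- level 240: the mean of `a²` -/
theorem r240 : (leafSL 3 4 (-(1 / 2)) 240 (by norm_num) hch3).Φ (fun x => aFn 3 x ^ 2) ≤ 321 / 50000 := by
  have h := inv240.a2_le
  have hb : sumW (fun p => numA 48 p * numA 48 p) (ptsOf 48 17 ks) w240 ≤ 36593154347268 := by decide +kernel
  have hb' : ((sumW (fun p => numA 48 p * numA 48 p) (ptsOf 48 17 ks) w240 : ℕ) : ℝ) ≤ ((36593154347268 : ℕ) : ℝ) := by exact_mod_cast hb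
  have h2 := h.trans hb'
  norm_num at h2 ⊢
  linarith

/-- level 235: the mean of `a` -/
theorem a235 : (leafSL 3 4 (-(1 / 2)) 235 (by norm_num) hch3).Φ (aFn 3) ≤ 383 / 6250 := by
  have h := inv235.a_le
  have hb : sumW (numA 48) (ptsOf 48 17 ks) w235 ≤ 75800331618 := by decide +kernel
  have hb' : ((sumW (numA 48) (ptsOf 48 17 ks) w235 : ℕ) : ℝ) ≤ ((75800331618 : ℕ) : ℝ) := by exact_mod_cast hb
  have h2 := h.trans hb'
  norm_num at h2 ⊢
  linarith

/-- level 235: the mean of `a²` -/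
theorem r235 : (leafSL 3 4 (-(1 / 2)) 235 (by norm_num) hch3).Φ (fun x => aFn 3 x ^ 2) ≤ 657 / 100000 := by
  have h := inv235.a2_le
  have hb : sumW (fun p => numA 48 p * numA 48 p) (ptsOf 48 17 ks) w235 ≤ 37448134589027 := by decide +kernel
  have hb' : ((sumW (fun p => numA 48 p * numA 48 p) (ptsOf 48 17 ks) w235 : ℕ) : ℝ) ≤ ((37448134589027 : ℕ) : ℝ) := by exact_mod_cast hb
  have h2 := h.trans hb'
  norm_num at h2 ⊢
  linarith

end Crest.Agent.Lib.Bc.GridO.O48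

namespace Crest.Agent.Lib.Bc.GridO.O48

/-- level 240: the potential of the tail lemma -/
theorem psi240 : (leafSL 3 4 (-(1 / 2)) 240 (by norm_num) hch3).Φ (aFn 3)
    + (1 / 6) * (leafSL 3 4 (-(1 / 2)) 240 (by norm_num) hch3).Φ (fun x => aFn 3 x ^ 2) ≤ 1 / 16 := by
  have h1 := a240
  have h2 := r240
  norm_num at h1 h2 ⊢
  linarith

end Crest.Agent.Lib.Bc.GridO.O48
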