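import Crest.Agent.Lib.Bc.GridB56
/-! Row 163: the grid orbit at `b = 5`, tilt `-17/38`, grid size 24, weights in units of `2^-28`; exit `< 1/2` at level 7. -/
set_option maxRecDepth 1000000
open Crest.ProbabilityR.Broadcast
namespace Crest.Agent.Lib.Bc.GridO.B5N24
def ks : List ℕ := [nat_lit 9,nat_lit 10,nat_lit 18,nat_lit 19,nat_lit 20,nat_lit 27,nat_lit 28,nat_lit 29,nat_lit 30,nat_lit 36,nat_lit 37,nat_lit 38,nat_lit 39,nat_lit 40,nat_lit 45,nat_lit 46,nat_lit 47,nat_lit 48,nat_lit 49,nat_lit 50,nat_lit 54,nat_lit 55,nat_lit 56,nat_lit 57,nat_lit 58,nat_lit 59,nat_lit 60,nat_lit 63,nat_lit 64,nat_lit 65,nat_lit 66,nat_lit 67,nat_lit 68,nat_lit 69,nat_lit 70,nat_lit 72,nat_lit 73,nat_lit 74,nat_lit 75,nat_lit 76,nat_lit 77,nat_lit 78,nat_lit 79,nat_lit 80,nat_lit 81,nat_lit 82,nat_lit 83,nat_lit 84,nat_lit 85,nat_lit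 86,nat_lit 87,nat_lit 90,nat_lit 91,nat_lit 92,nat_lit 93,nat_lit 94,nat_lit 99,nat_lit 100,nat_lit 101,nat_lit 108]
def P : List Pt := [⟨nat_lit 24,nat_lit 0,nat_lit 0⟩,⟨nat_lit 23,nat_lit 1,nat_lit 0⟩,⟨nat_lit 22,nat_lit 1,nat_lit 1⟩,⟨nat_lit 22,nat_lit 2,nat_lit 0⟩,⟨nat_lit 21,nat_lit 2,nat_lit 1⟩,⟨nat_lit 20,nat_lit 2,nat_lit 2⟩,⟨nat_lit 21,nat_lit 3,nat_lit 0⟩,⟨nat_lit 20,nat_lit 3,nat_lit 1⟩,⟨nat_lit 19,nat_lit 3,nat_lit 2⟩,⟨nat_lit 18,nat_lit 3,nat_lit 3⟩,⟨nat_lit 20,nat_lit 4,nat_lit 0⟩,⟨nat_lit 19,nat_lit 4,nat_lit 1⟩,⟨nat_lit 18,nat_lit 4,nat_lit 2⟩,⟨nat_lit 17,nat_lit 4,nat_lit 3⟩,⟨nat_lit 16,nat_lit 4,nat_lit 4⟩,⟨nat_lit 19,nat_lit 5,nat_lit 0⟩,⟨nat_lit 18,nat_lit 5,nat_lit 1⟩,⟨nat_lit 17,nat_lit 5,nat_lit 2⟩,⟨nat_lit 16,nat_lit 5,nat_lit 3⟩,⟨nat_lit 15,nat_lit 5,nat_lit 4⟩,⟨nat_lit 14,nat_lit 5,nat_lit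 5⟩,⟨nat_lit 18,nat_lit 6,nat_lit 0⟩,⟨nat_lit 17,nat_lit 6,nat_lit 1⟩,⟨nat_lit 16,nat_lit 6,nat_lit 2⟩,⟨nat_lit 15,nat_lit 6,nat_lit 3⟩,⟨nat_lit 14,nat_lit 6,nat_lit 4⟩,⟨nat_lit 13,nat_lit 6,nat_lit 5⟩,⟨nat_lit 12,nat_lit 6,nat_lit 6⟩,⟨nat_lit 17,nat_lit 7,nat_lit 0⟩,⟨nat_lit 16,nat_lit 7,nat_lit 1⟩,⟨nat_lit 15,nat_lit 7,nat_lit 2⟩,⟨nat_lit 14,nat_lit 7,nat_lit 3⟩,⟨nat_lit 13,nat_lit 7,nat_lit 4⟩,⟨nat_lit 12,nat_lit 7,nat_lit 5⟩,⟨nat_lit 11,nat_lit 7,nat_lit 6⟩,⟨nat_lit 10,nat_lit 7,nat_lit 7⟩,⟨nat_lit 16,nat_lit 8,nat_lit 0⟩,⟨nat_lit 15,nat_lit 8,nat_lit 1⟩,⟨nat_lit 14,nat_lit 8,nat_lit 2⟩,⟨nat_lit 13,nat_lit 8,nat_lit 3⟩,⟨nat_lit 12,nat_lit 8,nat_lit 4⟩,⟨nat_lit 11,nat_lit 8,nat_lit 5⟩,⟨nat_lit 10,nat_lit 8,nat_lit 6⟩,⟨nat_lit 9,nat_lit 8,nat_lit 7⟩,⟨nat_lit 8,nat_lit 8,nat_lit 8⟩,⟨nat_lit 15,nat_lit 9,nat_lit 0⟩,⟨nat_lit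 14,nat_lit 9,nat_lit 1⟩,⟨nat_lit 13,nat_lit 9,nat_lit 2⟩,⟨nat_lit 12,nat_lit 9,nat_lit 3⟩,⟨nat_lit 11,nat_lit 9,nat_lit 4⟩,⟨nat_lit 10,nat_lit 9,nat_lit 5⟩,⟨nat_lit 9,nat_lit 9,nat_lit 6⟩,⟨nat_lit 14,nat_lit 10,nat_lit 0⟩,⟨nat_lit 13,nat_lit 10,nat_lit 1⟩,⟨nat_lit 12,nat_lit 10,nat_lit 2⟩,⟨nat_lit 11,nat_lit 10,nat_lit 3⟩,⟨nat_lit 10,nat_lit 10,nat_lit 4⟩,⟨nat_lit 13,nat_lit 11,nat_lit 0⟩,⟨nat_lit 12,nat_lit 11,nat_lit 1⟩,⟨nat_lit 11,nat_lit 11,nat_lit 2⟩,⟨nat_lit 12,nat_lit 12,nat_lit 0⟩]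
def K : List Pt := [⟨nat_lit 96,nat_lit 1320,nat_lit 1320⟩,⟨nat_lit 147,nat_lit 1269,nat_lit 1320⟩,⟨nat_lit 198,nat_lit 1269,nat_lit 1269⟩,⟨nat_lit 198,nat_lit 1218,nat_lit 1320⟩,⟨nat_lit 249,nat_lit 1218,nat_lit 1269⟩,⟨nat_lit 300,nat_lit 1218,nat_lit 1218⟩,⟨nat_lit 249,nat_lit 1167,nat_lit 1320⟩,⟨nat_lit 300,nat_lit 1167,nat_lit 1269⟩,⟨nat_lit 351,nat_lit 1167,nat_lit 1218⟩,⟨nat_lit 402,nat_lit 1167,nat_lit 1167⟩,⟨nat_lit 300,nat_lit 1116,nat_lit 1320⟩,⟨nat_lit 351,nat_lit 1116,nat_lit 1269⟩,⟨nat_lit 402,nat_lit 1116,nat_lit 1218⟩,⟨nat_lit 453,nat_lit 1116,nat_lit 1167⟩,⟨nat_lit 504,nat_lit 1116,nat_lit 1116⟩,⟨nat_lit 351,nat_lit 1065,nat_lit 1320⟩,⟨nat_lit 402,nat_lit 1065,nat_lit 1269⟩,⟨nat_lit 453,nat_lit 1065,nat_lit 1218⟩,⟨nat_lit 504,nat_lit 1065,nat_lit 1167⟩,⟨nat_lit 555,nat_lit 1065,nat_lit 1116⟩,⟨nat_lit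 606,nat_lit 1065,nat_lit 1065⟩,⟨nat_lit 402,nat_lit 1014,nat_lit 1320⟩,⟨nat_lit 453,nat_lit 1014,nat_lit 1269⟩,⟨nat_lit 504,nat_lit 1014,nat_lit 1218⟩,⟨nat_lit 555,nat_lit 1014,nat_lit 1167⟩,⟨nat_lit 606,nat_lit 1014,nat_lit 1116⟩,⟨nat_lit 657,nat_lit 1014,nat_lit 1065⟩,⟨nat_lit 708,nat_lit 1014,nat_lit 1014⟩,⟨nat_lit 453,nat_lit 963,nat_lit 1320⟩,⟨nat_lit 504,nat_lit 963,nat_lit 1269⟩,⟨nat_lit 555,nat_lit 963,nat_lit 1218⟩,⟨nat_lit 606,nat_lit 963,nat_lit 1167⟩,⟨nat_lit 657,nat_lit 963,nat_lit 1116⟩,⟨nat_lit 708,nat_lit 963,nat_lit 1065⟩,⟨nat_lit 759,nat_lit 963,nat_lit 1014⟩,⟨nat_lit 810,nat_lit 963,nat_lit 963⟩,⟨nat_lit 504,nat_lit 912,nat_lit 1320⟩,⟨nat_lit 555,nat_lit 912,nat_lit 1269⟩,⟨nat_lit 606,nat_lit 912,nat_lit 1218⟩,⟨nat_lit 657,nat_lit 912,nat_lit 1167⟩,⟨nat_lit 708,nat_lit 912,nat_lit 1116⟩,⟨nat_lit 759,nat_lit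 912,nat_lit 1065⟩,⟨nat_lit 810,nat_lit 912,nat_lit 1014⟩,⟨nat_lit 861,nat_lit 912,nat_lit 963⟩,⟨nat_lit 912,nat_lit 912,nat_lit 912⟩,⟨nat_lit 555,nat_lit 861,nat_lit 1320⟩,⟨nat_lit 606,nat_lit 861,nat_lit 1269⟩,⟨nat_lit 657,nat_lit 861,nat_lit 1218⟩,⟨nat_lit 708,nat_lit 861,nat_lit 1167⟩,⟨nat_lit 759,nat_lit 861,nat_lit 1116⟩,⟨nat_lit 810,nat_lit 861,nat_lit 1065⟩,⟨nat_lit 861,nat_lit 861,nat_lit 1014⟩,⟨nat_lit 606,nat_lit 810,nat_lit 1320⟩,⟨nat_lit 657,nat_lit 810,nat_lit 1269⟩,⟨nat_lit 708,nat_lit 810,nat_lit 1218⟩,⟨nat_lit 759,nat_lit 810,nat_lit 1167⟩,⟨nat_lit 810,nat_lit 810,nat_lit 1116⟩,⟨nat_lit 657,nat_lit 759,nat_lit 1320⟩,⟨nat_lit 708,nat_lit 759,nat_lit 1269⟩,⟨nat_lit 759,nat_lit 759,nat_lit 1218⟩,⟨nat_lit 708,nat_lit 708,nat_lit 1320⟩]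
def eqPt (x y : Pt) : Bool := Nat.beq x.a y.a && Nat.beq x.b y.b && Nat.beq x.c y.c
def eqPts : List Pt → List Pt → Bool
  | [], [] => true
  | x :: xs, y :: ys => eqPt x y && eqPts xs ys
  | _, _ => false
theorem eqPts_eq : ∀ a b : List Pt, eqPts a b = true → a = b := by
  intro a
  induction a with
  | nil =>
    intro b h
    cases b with
    | nil => rfl
    | cons _ _ => simp [eqPts] at h
  | cons x a ih =>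
    intro b h
    cases b with
    | nil => simp [eqPts] at h
    | cons y b =>
      simp only [eqPts, eqPt, Bool.and_eq_true] at h
      obtain ⟨⟨⟨h1, h2⟩, h3⟩, h4⟩ := h
      have e : x = y := by
        have e1 := Nat.eq_of_beq_eq_true h1
        have e2 := Nat.eq_of_beq_eq_true h2
        have e3 := Nat.eq_of_beq_eq_true h3
        cases x; cases y
        dsimp only at e1 e2 e3
        subst e1 e2 e3
        rfl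
      rw [e, ih b h4]
theorem hP0 : eqPts P (ptsOf 24 9 ks) = true := by decide +kernel
theorem hK0 : eqPts K (P.map (tiltPtQ 17 38 24)) = true := by decide +kernel
theorem hP : P = ptsOf 24 9 ks := eqPts_eq _ _ hP0
theorem hK : K = P.map (tiltPtQ 17 38 24) := eqPts_eq _ _ hK0
theorem hnodup : ks.Nodup := by decide +kernel
theorem hvalid : ∀ k ∈ ks, k < 117 ∧ Valid 24 9 k := by
  have : ∀ k ∈ ks, k < 117 ∧ k / 9 + k % 9 ≤ 24 := by decide +kernel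
  exact this
theorem setup : SetupQ 24 9 80 117 268435456 17 38 ks :=
  ⟨by norm_num, by norm_num, by norm_num, by norm_num, by norm_num, by norm_num, by norm_num, hnodup, hvalid⟩
theorem hB : 1208925819614629174706176 = 2 ^ 80 := by norm_num
theorem hT1 : 1078802486918681997606912 = 2 * (3 * 38 * 24) * (3 * 38 * 24) * 268435456 * 268435456 := by norm_num
theorem hT2 : 83010348331692982272 = 2 * 24 * 24 * 268435456 * 268435456 := by norm_num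
theorem hT3 : 9463179709812999979008 = 2 * 24 * (3 * 38 * 24) * 268435456 * 268435456 := by norm_num
lemma hch0 (i j : Fin 3) : 0 ≤ channel 3 (-((((17 : ℕ) : ℝ)) / ((38 : ℕ) : ℝ))) i j :=
  ch3 (by norm_num) (by norm_num) i j
def w0 : List ℕ := [nat_lit 268435456,nat_lit 0,nat_lit 0,nat_lit 0,nat_lit 0,nat_lit 0,nat_lit 0,nat_lit 0,nat_lit 0,nat_lit 0,nat_lit 0,nat_lit 0,nat_lit 0,nat_lit 0,nat_lit 0,nat_lit 0,nat_lit 0,nat_lit 0,nat_lit 0,nat_lit 0,nat_lit 0,nat_lit 0,nat_lit 0,nat_lit 0,nat_lit 0,nat_lit 0,nat_lit 0,nat_lit 0,nat_lit 0,nat_lit 0,nat_lit 0,nat_lit 0,nat_lit 0,nat_lit 0,nat_lit 0,nat_lit 0,nat_lit 0,nat_lit 0,nat_lit 0,nat_lit 0,nat_lit 0,nat_lit 0,nat_lit 0,nat_lit 0,nat_lit 0,nat_lit 0,nat_lit 0,nat_lit 0,nat_lit 0,nat_lit 0,nat_lit 0,nat_lit 0,nat_lit 0,nat_lit 0,nat_lit 0,nat_lit 0,nat_lit 0,nat_lit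 0,nat_lit 0,nat_lit 0,nat_lit 0]
def wE : List ℕ := [nat_lit 9370440,nat_lit 25436385,nat_lit 10194582,nat_lit 20692977,nat_lit 11242222,nat_lit 3238869,nat_lit 16295076,nat_lit 7289544,nat_lit 4480946,nat_lit 1496674,nat_lit 13382096,nat_lit 5416545,nat_lit 3473594,nat_lit 2295477,nat_lit 926521,nat_lit 11532421,nat_lit 4363929,nat_lit 2914953,nat_lit 1909380,nat_lit 1581561,nat_lit 688211,nat_lit 10245837,nat_lit 3741198,nat_lit 2545516,nat_lit 1742697,nat_lit 1304604,nat_lit 1214314,nat_lit 548835,nat_lit 9424702,nat_lit 3314188,nat_lit 2291058,nat_lit 1589944,nat_lit 1277377,nat_lit 1023144,nat_lit 938727,nat_lit 511696,nat_lit 8850412,nat_lit 3046778,nat_lit 2123156,nat_lit 1436524,nat_lit 1210717,nat_lit 1081068,nat_lit 862507,nat_lit 859395,nat_lit 160055,nat_lit 8644680,nat_lit 2851813,nat_lit 2011120,nat_lit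 1469352,nat_lit 1170412,nat_lit 995333,nat_lit 509028,nat_lit 8359123,nat_lit 2761698,nat_lit 1946843,nat_lit 1353133,nat_lit 566003,nat_lit 8418931,nat_lit 2693720,nat_lit 966876,nat_lit 4150539]
theorem h0 : w0 = 268435456 :: List.replicate ks.length 0 := by decide +kernel
theorem inv0 : InvB 5 (-(((17 : ℕ) : ℝ) / ((38 : ℕ) : ℝ))) hch0 24 9 268435456 ks 0 w0 := by
  rw [h0]
  exact InvB.zero setup
theorem chk : eqF (levels5F 80 1208925819614629174706176 1078802486918681997606912 83010348331692982272 9463179709812999979008 268435456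
    (mkTabF 24 9 80 K K) (mkTabF 24 9 80 P P) (mkTabF 24 9 80 P K) ks 7 w0) wE = true := by decide +kernel
theorem invE : InvB 5 (-(((17 : ℕ) : ℝ) / ((38 : ℕ) : ℝ))) hch0 24 9 268435456 ks 7 wE := by
  simpa using InvB.check5 (m := 0) (k := 7) setup hP hK hB hT1 hT2 hT3 inv0 chk
theorem exit0 : momS (leafSL 3 5 (-(((17 : ℕ) : ℝ) / ((38 : ℕ) : ℝ))) 7 (by norm_num) hch0) < ((1 : ℕ) : ℝ) / ((2 : ℕ) : ℝ) := by
  have hg : Good 24 268435456 P wE := by rw [hP]; exact invE.1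
  have hlt : 2 * aSumF P wE < (2 * 1 + 2) * 268435456 * (24 * 24) := by decide +kernel
  have h1 := momS_lt_of_grid hg (by norm_num) hlt
  have h2 := invE.2 (aFn 3) (aFn_convexSym' (by norm_num))
  rw [← hP] at h2
  exact lt_of_le_of_lt h2 h1
/-- the exit of the critical tree `b = 5`: any `lam < 0` with `b lam² = 1`. -/
theorem exit_crit (lam : ℝ) (hl : lam < 0) (hb : (5 : ℝ) * lam ^ 2 = 1)
    (hch : ∀ i j : Fin 3, 0 ≤ channel 3 lam i j) :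
    momS (leafSL 3 5 lam 7 (by norm_num) hch) < (1 : ℝ) / 2 := by
  have hle : -(((17 : ℕ) : ℝ) / ((38 : ℕ) : ℝ)) ≤ lam := by
    push_cast
    nlinarith
  have h1 := momS_leaf_le_of_ratio (b := 5) (by norm_num) hl hle hch0 hch 7
  have h2 := exit0
  push_cast at h2
  exact lt_of_le_of_lt h1 h2
end Crest.Agent.Lib.Bc.GridO.B5N24
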