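import Crest.Agent.Lib.Bc.Orbit.O36C150
/-! Row 163: levels 150 to 180 of the grid orbit. -/
set_option maxRecDepth 1000000
namespace Crest.Agent.Lib.Bc.GridO.O36
def w180 : List ℕ := [nat_lit 158,nat_lit 0,nat_lit 0,nat_lit 0,nat_lit 0,nat_lit 7,nat_lit 0,nat_lit 5,nat_lit 315,nat_lit 2362,nat_lit 2,nat_lit 62,nat_lit 2798,nat_lit 25349,nat_lit 53550,nat_lit 5,nat_lit 446,nat_lit 11886,nat_lit 84421,nat_lit 266115,nat_lit 293246,nat_lit 14,nat_lit 1816,nat_lit 36486,nat_lit 186761,nat_lit 503877,nat_lit 1013898,nat_lit 868033,nat_lit 36,nat_lit 5442,nat_lit 77939,nat_lit 344029,nat_lit 833644,nat_lit 1478713,nat_lit 2360618,nat_lit 1636895,nat_lit 97,nat_lit 12304,nat_lit 141689,nat_lit 533222,nat_lit 1234715,nat_lit 2027394,nat_lit 2947061,nat_lit 4043862,nat_lit 2486120,nat_lit 238,nat_lit 23357,nat_lit 223022,nat_lit 770500,nat_lit 1604107,nat_lit 2594536,nat_lit 3600052,nat_lit 4719855,nat_lit 5773535,nat_lit 3294302,nat_lit 478,nat_lit 38722,nat_lit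 324126,nat_lit 1012077,nat_lit 1976363,nat_lit 3120207,nat_lit 4218487,nat_lit 5330618,nat_lit 6475663,nat_lit 7287688,nat_lit 4005813,nat_lit 849,nat_lit 59710,nat_lit 427302,nat_lit 1258438,nat_lit 2326739,nat_lit 3630147,nat_lit 4705708,nat_lit 5888349,nat_lit 6974572,nat_lit 7771533,nat_lit 8445013,nat_lit 4430474,nat_lit 1422,nat_lit 82660,nat_lit 528492,nat_lit 1491212,nat_lit 2638373,nat_lit 4051360,nat_lit 5202594,nat_lit 6227510,nat_lit 7407020,nat_lit 8142063,nat_lit 8757010,nat_lit 9048198,nat_lit 1536394,nat_lit 2138,nat_lit 106719,nat_lit 620688,nat_lit 1676055,nat_lit 2864337,nat_lit 4402271,nat_lit 5509991,nat_lit 6603582,nat_lit 7566215,nat_lit 8281589,nat_lit 4409394,nat_lit 2990,nat_lit 129690,nat_lit 716319,nat_lit 1804830,nat_lit 3059701,nat_lit 4618407,nat_lit 5740581,nat_lit 6724002,nat_lit 3885190,nat_lit 3845,nat_lit 151057,nat_lit 787936,nat_lit 1891825,nat_lit 3169467,nat_lit 4746431,nat_lit 2884883,nat_lit 4545,nat_lit 164605,nat_lit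 840602,nat_lit 1928470,nat_lit 1595626,nat_lit 4565,nat_lit 165570,nat_lit 426835,nat_lit 2225]
theorem chk180 : eqF (levelsSF 70 1180591620717411303424 747093134985236840448 186773283746309210112 268435456
    (mkTabSF 36 13 70 K) (mkTabSF 36 13 70 P) ks 30 w150) w180 = true := by decide +kernel
theorem inv180 : Inv 36 13 268435456 ks 180 w180 :=
  Inv.check (m := 150) (k := 30) setup hP hK hB hT1 hT2 inv150 chk180
end Crest.Agent.Lib.Bc.GridO.O36
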