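import Crest.Agent.Lib.Bc.Orbit.O36E150
import Crest.Agent.Lib.Bc.Orbit.O36C180
/-! Row 163: the means of `a` and `a²` along the grid orbit at `b = 4`, `λ = -1/2`, level 180. -/
set_option maxRecDepth 1000000
namespace Crest.Agent.Lib.Bc.GridO.O36

/-- level 180: the mean of `a` -/
theorem a180 : (leafSL 3 4 (-(1 / 2)) 180 (by norm_num) hch3).Φ (aFn 3) ≤ 171 / 2000 := by
  have h := inv180.a_le
  have hb : sumW (numA 36) (ptsOf 36 13 ks) w180 ≤ 59489592016 := by decide +kernel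
  have hb' : ((sumW (numA 36) (ptsOf 36 13 ks) w180 : ℕ) : ℝ) ≤ ((59489592016 : ℕ) : ℝ) := by exact_mod_cast hb
  have h2 := h.trans hb'
  norm_num at h2 ⊢
  linarith

/-- level 180: the mean of `a²` -/
theorem r180 : (leafSL 3 4 (-(1 / 2)) 180 (by norm_num) hch3).Φ (fun x => aFn 3 x ^ 2) ≤ 31 / 2500 := by
  have h := inv180.a2_le
  have hb : sumW (fun p => numA 36 p * numA 36 p) (ptsOf 36 13 ks) w180 ≤ 22363076948498 := by decide +kernel
  have hb' : ((sumW (fun p => numA 36 p * numA 36 p) (ptsOf 36 13 ks) w180 : ℕ) : ℝ) ≤ ((22363076948498 : ℕ) : ℝ) := by exact_mod_cast hb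
  have h2 := h.trans hb'
  norm_num at h2 ⊢
  linarith

end Crest.Agent.Lib.Bc.GridO.O36
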