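import Crest.Agent.Lib.Bc.Orbit.O48Data
/-! Row 163: levels 180 to 185 of the grid orbit. -/
set_option maxRecDepth 1000000
namespace Crest.Agent.Lib.Bc.GridO.O48
def w185 : List ℕ := [nat_lit 262,nat_lit 0,nat_lit 0,nat_lit 0,nat_lit 0,nat_lit 0,nat_lit 0,nat_lit 0,nat_lit 0,nat_lit 3,nat_lit 0,nat_lit 0,nat_lit 3,nat_lit 103,nat_lit 490,nat_lit 1,nat_lit 0,nat_lit 35,nat_lit 698,nat_lit 5147,nat_lit 9335,nat_lit 2,nat_lit 2,nat_lit 201,nat_lit 2915,nat_lit 15836,nat_lit 52308,nat_lit 57434,nat_lit 5,nat_lit 14,nat_lit 754,nat_lit 8467,nat_lit 37037,nat_lit 106178,nat_lit 214841,nat_lit 189373,nat_lit 9,nat_lit 56,nat_lit 2232,nat_lit 18779,nat_lit 76273,nat_lit 180415,nat_lit 342923,nat_lit 568605,nat_lit 439658,nat_lit 14,nat_lit 172,nat_lit 5444,nat_lit 36343,nat_lit 125802,nat_lit 282398,nat_lit 513765,nat_lit 777605,nat_lit 1127075,nat_lit 758950,nat_lit 20,nat_lit 451,nat_lit 10605,nat_lit 62604,nat_lit 189004,nat_lit 396688,nat_lit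 711784,nat_lit 1030514,nat_lit 1392975,nat_lit 1839240,nat_lit 1137876,nat_lit 28,nat_lit 960,nat_lit 18578,nat_lit 97184,nat_lit 266377,nat_lit 531859,nat_lit 892691,nat_lit 1303117,nat_lit 1688720,nat_lit 2166392,nat_lit 2628253,nat_lit 1524835,nat_lit 39,nat_lit 1850,nat_lit 29540,nat_lit 136217,nat_lit 357481,nat_lit 677238,nat_lit 1079816,nat_lit 1564275,nat_lit 1990859,nat_lit 2485404,nat_lit 2973021,nat_lit 3436177,nat_lit 1917835,nat_lit 54,nat_lit 3214,nat_lit 43099,nat_lit 182923,nat_lit 449450,nat_lit 833883,nat_lit 1257627,nat_lit 1810658,nat_lit 2280630,nat_lit 2771836,nat_lit 3283005,nat_lit 3746568,nat_lit 4154934,nat_lit 2251928,nat_lit 76,nat_lit 5057,nat_lit 58790,nat_lit 231375,nat_lit 542589,nat_lit 985406,nat_lit 1440572,nat_lit 2032357,nat_lit 2554359,nat_lit 3040575,nat_lit 3586696,nat_lit 4036184,nat_lit 4438455,nat_lit 4760342,nat_lit 2522367,nat_lit 108,nat_lit 7554,nat_lit 76502,nat_lit 283414,nat_lit 634430,nat_lit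 1129237,nat_lit 1616803,nat_lit 2231621,nat_lit 2766044,nat_lit 3287165,nat_lit 3808060,nat_lit 4257156,nat_lit 4673484,nat_lit 4956461,nat_lit 5195454,nat_lit 2682995,nat_lit 151,nat_lit 10349,nat_lit 94820,nat_lit 334726,nat_lit 721593,nat_lit 1253810,nat_lit 1784166,nat_lit 2402066,nat_lit 2997674,nat_lit 3446555,nat_lit 4016524,nat_lit 4411571,nat_lit 4833370,nat_lit 5121279,nat_lit 5325815,nat_lit 5432534,nat_lit 916929,nat_lit 202,nat_lit 13475,nat_lit 113175,nat_lit 385651,nat_lit 796266,nat_lit 1358200,nat_lit 1923626,nat_lit 2536082,nat_lit 3161297,nat_lit 3638902,nat_lit 4132048,nat_lit 4549964,nat_lit 4895022,nat_lit 5180145,nat_lit 2674513,nat_lit 265,nat_lit 16680,nat_lit 130438,nat_lit 432169,nat_lit 862291,nat_lit 1437994,nat_lit 2036536,nat_lit 2648247,nat_lit 3294921,nat_lit 3722014,nat_lit 4248493,nat_lit 4600514,nat_lit 2478713,nat_lit 335,nat_lit 19724,nat_lit 146135,nat_lit 471157,nat_lit 929072,nat_lit 1494618,nat_lit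 2093818,nat_lit 2721461,nat_lit 3360904,nat_lit 3789576,nat_lit 2119707,nat_lit 410,nat_lit 22757,nat_lit 161577,nat_lit 493708,nat_lit 987267,nat_lit 1536153,nat_lit 2140033,nat_lit 2757309,nat_lit 1697401,nat_lit 476,nat_lit 25403,nat_lit 172592,nat_lit 504828,nat_lit 1022413,nat_lit 1556833,nat_lit 1071898,nat_lit 522,nat_lit 26816,nat_lit 180606,nat_lit 514970,nat_lit 513592,nat_lit 544,nat_lit 26927,nat_lit 91898,nat_lit 275]
theorem chk185 : eqF (levelsSF 72 4722366482869645213696 1328165573307087716352 332041393326771929088 268435456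
    (mkTabSF 48 17 72 K) (mkTabSF 48 17 72 P) ks 5 w180) w185 = true := by decide +kernel
theorem inv185 : Inv 48 17 268435456 ks 185 w185 :=
  Inv.check (m := 180) (k := 5) setup hP hK hB hT1 hT2 inv180 chk185
end Crest.Agent.Lib.Bc.GridO.O48
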