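import Crest.Agent.Lib.Bc.Orbit.O48C185
/-! Row 163: levels 185 to 190 of the grid orbit. -/
set_option maxRecDepth 1000000
namespace Crest.Agent.Lib.Bc.GridO.O48
def w190 : List ℕ := [nat_lit 259,nat_lit 0,nat_lit 0,nat_lit 0,nat_lit 0,nat_lit 0,nat_lit 0,nat_lit 0,nat_lit 0,nat_lit 1,nat_lit 0,nat_lit 0,nat_lit 1,nat_lit 46,nat_lit 256,nat_lit 1,nat_lit 0,nat_lit 15,nat_lit 358,nat_lit 3038,nat_lit 6076,nat_lit 2,nat_lit 1,nat_lit 96,nat_lit 1661,nat_lit 10187,nat_lit 36874,nat_lit 43233,nat_lit 4,nat_lit 6,nat_lit 396,nat_lit 5223,nat_lit 25465,nat_lit 79337,nat_lit 170154,nat_lit 157243,nat_lit 8,nat_lit 26,nat_lit 1269,nat_lit 12321,nat_lit 55552,nat_lit 141052,nat_lit 282610,nat_lit 489396,nat_lit 392284,nat_lit 12,nat_lit 85,nat_lit 3314,nat_lit 25097,nat_lit 95626,nat_lit 229090,nat_lit 438163,nat_lit 688223,nat_lit 1031357,nat_lit 712682,nat_lit 18,nat_lit 240,nat_lit 6776,nat_lit 45182,nat_lit 148611,nat_lit 331509,nat_lit 624170,nat_lit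 935278,nat_lit 1299985,nat_lit 1759045,nat_lit 1109518,nat_lit 25,nat_lit 538,nat_lit 12377,nat_lit 72727,nat_lit 215562,nat_lit 455710,nat_lit 800194,nat_lit 1207439,nat_lit 1604560,nat_lit 2103698,nat_lit 2599954,nat_lit 1529116,nat_lit 34,nat_lit 1083,nat_lit 20383,nat_lit 104862,nat_lit 296382,nat_lit 592809,nat_lit 984893,nat_lit 1473912,nat_lit 1919587,nat_lit 2445612,nat_lit 2976216,nat_lit 3485940,nat_lit 1965429,nat_lit 46,nat_lit 1955,nat_lit 30628,nat_lit 144054,nat_lit 380225,nat_lit 743054,nat_lit 1163684,nat_lit 1729727,nat_lit 2226209,nat_lit 2757653,nat_lit 3317332,nat_lit 3836682,nat_lit 4295132,nat_lit 2345919,nat_lit 62,nat_lit 3179,nat_lit 42782,nat_lit 185818,nat_lit 466737,nat_lit 891298,nat_lit 1349388,nat_lit 1962387,nat_lit 2518819,nat_lit 3053549,nat_lit 3652268,nat_lit 4161650,nat_lit 4619513,nat_lit 4989505,nat_lit 2658002,nat_lit 82,nat_lit 4881,nat_lit 56816,nat_lit 231391,nat_lit 553354,nat_lit 1033761,nat_lit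 1530526,nat_lit 2174088,nat_lit 2750403,nat_lit 3324597,nat_lit 3904020,nat_lit 4413282,nat_lit 4886506,nat_lit 5217330,nat_lit 5495255,nat_lit 2846128,nat_lit 111,nat_lit 6841,nat_lit 71587,nat_lit 277028,nat_lit 636794,nat_lit 1159300,nat_lit 1703720,nat_lit 2356832,nat_lit 3001809,nat_lit 3505116,nat_lit 4137511,nat_lit 4593134,nat_lit 5071479,nat_lit 5404787,nat_lit 5644634,nat_lit 5771208,nat_lit 974728,nat_lit 143,nat_lit 9076,nat_lit 86649,nat_lit 322946,nat_lit 708924,nat_lit 1265645,nat_lit 1849508,nat_lit 2501208,nat_lit 3182394,nat_lit 3715972,nat_lit 4270952,nat_lit 4750260,nat_lit 5147170,nat_lit 5473771,nat_lit 2836446,nat_lit 183,nat_lit 11406,nat_lit 100951,nat_lit 365456,nat_lit 772867,nat_lit 1347850,nat_lit 1967440,nat_lit 2622772,nat_lit 3328984,nat_lit 3811821,nat_lit 4399982,nat_lit 4808817,nat_lit 2608871,nat_lit 227,nat_lit 13650,nat_lit 114054,nat_lit 401499,nat_lit 837992,nat_lit 1406095,nat_lit 2029120,nat_lit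 2702316,nat_lit 3402768,nat_lit 3885965,nat_lit 2196614,nat_lit 274,nat_lit 15915,nat_lit 127192,nat_lit 422774,nat_lit 894934,nat_lit 1448956,nat_lit 2077722,nat_lit 2741129,nat_lit 1720044,nat_lit 316,nat_lit 17911,nat_lit 136617,nat_lit 433086,nat_lit 929496,nat_lit 1469866,nat_lit 1041542,nat_lit 346,nat_lit 18969,nat_lit 143455,nat_lit 442423,nat_lit 467335,nat_lit 360,nat_lit 18989,nat_lit 73089,nat_lit 182]
theorem chk190 : eqF (levelsSF 72 4722366482869645213696 1328165573307087716352 332041393326771929088 268435456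
    (mkTabSF 48 17 72 K) (mkTabSF 48 17 72 P) ks 5 w185) w190 = true := by decide +kernel
theorem inv190 : Inv 48 17 268435456 ks 190 w190 :=
  Inv.check (m := 185) (k := 5) setup hP hK hB hT1 hT2 inv185 chk190
end Crest.Agent.Lib.Bc.GridO.O48
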