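import Crest.Agent.Lib.Bc.Orbit.O48C190
/-! Row 163: levels 190 to 195 of the grid orbit. -/
set_option maxRecDepth 1000000
namespace Crest.Agent.Lib.Bc.GridO.O48
def w195 : List ℕ := [nat_lit 252,nat_lit 0,nat_lit 0,nat_lit 0,nat_lit 0,nat_lit 0,nat_lit 0,nat_lit 0,nat_lit 0,nat_lit 0,nat_lit 0,nat_lit 0,nat_lit 0,nat_lit 22,nat_lit 141,nat_lit 0,nat_lit 0,nat_lit 7,nat_lit 195,nat_lit 1874,nat_lit 4094,nat_lit 2,nat_lit 0,nat_lit 49,nat_lit 993,nat_lit 6793,nat_lit 26717,nat_lit 33250,nat_lit 4,nat_lit 2,nat_lit 220,nat_lit 3355,nat_lit 18038,nat_lit 60612,nat_lit 137063,nat_lit 132237,nat_lit 7,nat_lit 13,nat_lit 758,nat_lit 8369,nat_lit 41472,nat_lit 112300,nat_lit 236053,nat_lit 425295,nat_lit 352323,nat_lit 11,nat_lit 45,nat_lit 2106,nat_lit 17856,nat_lit 74227,nat_lit 188640,nat_lit 377597,nat_lit 613571,nat_lit 947924,nat_lit 670698,nat_lit 16,nat_lit 135,nat_lit 4499,nat_lit 33465,nat_lit 118963,nat_lit 280473,nat_lit 551769,nat_lit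 853165,nat_lit 1216534,nat_lit 1683468,nat_lit 1080791,nat_lit 23,nat_lit 318,nat_lit 8534,nat_lit 55681,nat_lit 177138,nat_lit 394444,nat_lit 721766,nat_lit 1122498,nat_lit 1526413,nat_lit 2041542,nat_lit 2566321,nat_lit 1528336,nat_lit 31,nat_lit 665,nat_lit 14509,nat_lit 82381,nat_lit 248992,nat_lit 523226,nat_lit 902585,nat_lit 1391449,nat_lit 1850807,nat_lit 2402172,nat_lit 2969775,nat_lit 3521117,nat_lit 2003843,nat_lit 41,nat_lit 1243,nat_lit 22392,nat_lit 115529,nat_lit 325352,nat_lit 666609,nat_lit 1080544,nat_lit 1653644,nat_lit 2170761,nat_lit 2736181,nat_lit 3338595,nat_lit 3908621,nat_lit 4413950,nat_lit 2427842,nat_lit 54,nat_lit 2082,nat_lit 31958,nat_lit 151697,nat_lit 405508,nat_lit 810621,nat_lit 1267123,nat_lit 1894542,nat_lit 2478930,nat_lit 3055845,nat_lit 3701821,nat_lit 4266431,nat_lit 4776772,nat_lit 5192871,nat_lit 2779909,nat_lit 69,nat_lit 3278,nat_lit 43230,nat_lit 191751,nat_lit 486881,nat_lit 950624,nat_lit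 1451150,nat_lit 2116125,nat_lit 2727611,nat_lit 3348743,nat_lit 3981548,nat_lit 4547113,nat_lit 5074166,nat_lit 5451307,nat_lit 5766977,nat_lit 2994819,nat_lit 90,nat_lit 4690,nat_lit 55285,nat_lit 232423,nat_lit 566322,nat_lit 1075834,nat_lit 1628274,nat_lit 2309030,nat_lit 2996219,nat_lit 3548625,nat_lit 4238192,nat_lit 4751140,nat_lit 5283329,nat_lit 5660605,nat_lit 5934898,nat_lit 6081056,nat_lit 1027623,nat_lit 113,nat_lit 6329,nat_lit 67774,nat_lit 273858,nat_lit 635595,nat_lit 1182949,nat_lit 1778698,nat_lit 2462109,nat_lit 3191877,nat_lit 3776327,nat_lit 4388582,nat_lit 4926101,nat_lit 5372639,nat_lit 5739631,nat_lit 2983957,nat_lit 140,nat_lit 8064,nat_lit 79736,nat_lit 312681,nat_lit 697181,nat_lit 1266564,nat_lit 1900421,nat_lit 2591650,nat_lit 3349984,nat_lit 3883988,nat_lit 4529366,nat_lit 4992318,nat_lit 2725496,nat_lit 171,nat_lit 9756,nat_lit 90774,nat_lit 345934,nat_lit 760309,nat_lit 1325767,nat_lit 1965596,nat_lit 2676598,nat_lit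 3430909,nat_lit 3964108,nat_lit 2262497,nat_lit 202,nat_lit 11484,nat_lit 102028,nat_lit 365906,nat_lit 815680,nat_lit 1369458,nat_lit 2016063,nat_lit 2717982,nat_lit 1735592,nat_lit 231,nat_lit 13020,nat_lit 110146,nat_lit 375448,nat_lit 849429,nat_lit 1390367,nat_lit 1011399,nat_lit 252,nat_lit 13830,nat_lit 116014,nat_lit 384047,nat_lit 427436,nat_lit 261,nat_lit 13800,nat_lit 59178,nat_lit 132]
theorem chk195 : eqF (levelsSF 72 4722366482869645213696 1328165573307087716352 332041393326771929088 268435456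
    (mkTabSF 48 17 72 K) (mkTabSF 48 17 72 P) ks 5 w190) w195 = true := by decide +kernel
theorem inv195 : Inv 48 17 268435456 ks 195 w195 :=
  Inv.check (m := 190) (k := 5) setup hP hK hB hT1 hT2 inv190 chk195
end Crest.Agent.Lib.Bc.GridO.O48
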