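import Crest.Agent.Lib.Bc.Orbit.O48C195
/-! Row 163: levels 195 to 200 of the grid orbit. -/
set_option maxRecDepth 1000000
namespace Crest.Agent.Lib.Bc.GridO.O48
def w200 : List ℕ := [nat_lit 262,nat_lit 0,nat_lit 0,nat_lit 0,nat_lit 0,nat_lit 0,nat_lit 0,nat_lit 0,nat_lit 0,nat_lit 0,nat_lit 0,nat_lit 0,nat_lit 0,nat_lit 11,nat_lit 82,nat_lit 0,nat_lit 0,nat_lit 3,nat_lit 112,nat_lit 1207,nat_lit 2856,nat_lit 1,nat_lit 0,nat_lit 27,nat_lit 622,nat_lit 4695,nat_lit 19904,nat_lit 26144,nat_lit 3,nat_lit 1,nat_lit 129,nat_lit 2243,nat_lit 13167,nat_lit 47372,nat_lit 112375,nat_lit 112727,nat_lit 6,nat_lit 6,nat_lit 474,nat_lit 5884,nat_lit 31748,nat_lit 91110,nat_lit 199995,nat_lit 373502,nat_lit 318819,nat_lit 10,nat_lit 25,nat_lit 1396,nat_lit 13091,nat_lit 58868,nat_lit 157787,nat_lit 329101,nat_lit 551531,nat_lit 875939,nat_lit 633212,nat_lit 15,nat_lit 80,nat_lit 3102,nat_lit 25444,nat_lit 97011,nat_lit 240433,nat_lit 492168,nat_lit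 782993,nat_lit 1142713,nat_lit 1613871,nat_lit 1052867,nat_lit 22,nat_lit 197,nat_lit 6088,nat_lit 43630,nat_lit 147920,nat_lit 345198,nat_lit 655712,nat_lit 1048052,nat_lit 1455305,nat_lit 1982055,nat_lit 2530254,nat_lit 1524126,nat_lit 30,nat_lit 428,nat_lit 10652,nat_lit 66077,nat_lit 212123,nat_lit 466084,nat_lit 831898,nat_lit 1317477,nat_lit 1786297,nat_lit 2357828,nat_lit 2956974,nat_lit 3545117,nat_lit 2034709,nat_lit 39,nat_lit 825,nat_lit 16841,nat_lit 94407,nat_lit 281827,nat_lit 602656,nat_lit 1007877,nat_lit 1583730,nat_lit 2116665,nat_lit 2710497,nat_lit 3350198,nat_lit 3965721,nat_lit 4514317,nat_lit 2498950,nat_lit 50,nat_lit 1419,nat_lit 24507,nat_lit 125968,nat_lit 356147,nat_lit 742028,nat_lit 1194039,nat_lit 1830689,nat_lit 2437541,nat_lit 3050761,nat_lit 3738750,nat_lit 4353647,nat_lit 4912816,nat_lit 5372406,nat_lit 2888808,nat_lit 63,nat_lit 2286,nat_lit 33706,nat_lit 161397,nat_lit 432548,nat_lit 878973,nat_lit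 1379485,nat_lit 2060036,nat_lit 2700765,nat_lit 3362974,nat_lit 4043906,nat_lit 4661427,nat_lit 5238717,nat_lit 5659929,nat_lit 6011587,nat_lit 3129376,nat_lit 80,nat_lit 3333,nat_lit 43687,nat_lit 197823,nat_lit 508028,nat_lit 1003027,nat_lit 1559100,nat_lit 2261251,nat_lit 2984202,nat_lit 3580377,nat_lit 4321725,nat_lit 4888085,nat_lit 5470819,nat_lit 5889979,nat_lit 6197296,nat_lit 6362406,nat_lit 1075670,nat_lit 98,nat_lit 4567,nat_lit 54173,nat_lit 235354,nat_lit 574386,nat_lit 1110095,nat_lit 1712835,nat_lit 2421587,nat_lit 3193115,nat_lit 3823257,nat_lit 4487908,nat_lit 5079784,nat_lit 5573113,nat_lit 5978762,nat_lit 3117374,nat_lit 119,nat_lit 5892,nat_lit 64299,nat_lit 270896,nat_lit 633558,nat_lit 1194395,nat_lit 1837362,nat_lit 2557842,nat_lit 3361366,nat_lit 3941727,nat_lit 4639531,nat_lit 5153229,nat_lit 2829382,nat_lit 142,nat_lit 7199,nat_lit 73703,nat_lit 301617,nat_lit 694566,nat_lit 1254082,nat_lit 1905283,nat_lit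 2647365,nat_lit 3448732,nat_lit 4027229,nat_lit 2318762,nat_lit 165,nat_lit 8547,nat_lit 83436,nat_lit 320342,nat_lit 748239,nat_lit 1298237,nat_lit 1957191,nat_lit 2690956,nat_lit 1745776,nat_lit 186,nat_lit 9755,nat_lit 90492,nat_lit 329183,nat_lit 781065,nat_lit 1318996,nat_lit 982544,nat_lit 201,nat_lit 10389,nat_lit 95573,nat_lit 337124,nat_lit 393338,nat_lit 209,nat_lit 10334,nat_lit 48801,nat_lit 105]
theorem chk200 : eqF (levelsSF 72 4722366482869645213696 1328165573307087716352 332041393326771929088 268435456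
    (mkTabSF 48 17 72 K) (mkTabSF 48 17 72 P) ks 5 w195) w200 = true := by decide +kernel
theorem inv200 : Inv 48 17 268435456 ks 200 w200 :=
  Inv.check (m := 195) (k := 5) setup hP hK hB hT1 hT2 inv195 chk200
end Crest.Agent.Lib.Bc.GridO.O48
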