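import Crest.Agent.Lib.Bc.Orbit.O48C200
/-! Row 163: levels 200 to 205 of the grid orbit. -/
set_option maxRecDepth 1000000
namespace Crest.Agent.Lib.Bc.GridO.O48
def w205 : List ℕ := [nat_lit 241,nat_lit 0,nat_lit 0,nat_lit 0,nat_lit 0,nat_lit 0,nat_lit 0,nat_lit 0,nat_lit 0,nat_lit 0,nat_lit 0,nat_lit 0,nat_lit 0,nat_lit 6,nat_lit 51,nat_lit 0,nat_lit 0,nat_lit 1,nat_lit 68,nat_lit 812,nat_lit 2062,nat_lit 1,nat_lit 0,nat_lit 15,nat_lit 408,nat_lit 3362,nat_lit 15244,nat_lit 21015,nat_lit 2,nat_lit 0,nat_lit 80,nat_lit 1559,nat_lit 9902,nat_lit 37875,nat_lit 93790,nat_lit 97439,nat_lit 5,nat_lit 3,nat_lit 311,nat_lit 4280,nat_lit 24919,nat_lit 75331,nat_lit 171924,nat_lit 331627,nat_lit 290826,nat_lit 8,nat_lit 15,nat_lit 964,nat_lit 9886,nat_lit 47697,nat_lit 134094,nat_lit 290208,nat_lit 500094,nat_lit 814260,nat_lit 600132,nat_lit 13,nat_lit 50,nat_lit 2219,nat_lit 19853,nat_lit 80595,nat_lit 208898,nat_lit 443170,nat_lit 723369,nat_lit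 1078076,nat_lit 1550847,nat_lit 1026492,nat_lit 18,nat_lit 128,nat_lit 4490,nat_lit 34980,nat_lit 125539,nat_lit 305561,nat_lit 600296,nat_lit 983390,nat_lit 1391546,nat_lit 1926516,nat_lit 2493812,nat_lit 1517741,nat_lit 25,nat_lit 288,nat_lit 8059,nat_lit 54104,nat_lit 183298,nat_lit 419203,nat_lit 771568,nat_lit 1251930,nat_lit 1727012,nat_lit 2314451,nat_lit 2940312,nat_lit 3560731,nat_lit 2059445,nat_lit 34,nat_lit 571,nat_lit 13022,nat_lit 78604,nat_lit 247202,nat_lit 549315,nat_lit 944901,nat_lit 1520528,nat_lit 2065425,nat_lit 2682858,nat_lit 3354863,nat_lit 4010866,nat_lit 4598943,nat_lit 2560488,nat_lit 43,nat_lit 1005,nat_lit 19282,nat_lit 106400,nat_lit 316305,nat_lit 683995,nat_lit 1129805,nat_lit 1771844,nat_lit 2396607,nat_lit 3040845,nat_lit 3765889,nat_lit 4426114,nat_lit 5030177,nat_lit 5530252,nat_lit 2985597,nat_lit 54,nat_lit 1653,nat_lit 26917,nat_lit 137991,nat_lit 388149,nat_lit 817625,nat_lit 1315630,nat_lit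 2007229,nat_lit 2672115,nat_lit 3369997,nat_lit 4093919,nat_lit 4758848,nat_lit 5382491,nat_lit 5845039,nat_lit 6230536,nat_lit 3250397,nat_lit 68,nat_lit 2451,nat_lit 35309,nat_lit 170834,nat_lit 459882,nat_lit 940030,nat_lit 1496673,nat_lit 2215189,nat_lit 2968243,nat_lit 3603091,nat_lit 4390916,nat_lit 5006427,nat_lit 5636043,nat_lit 6094552,nat_lit 6433071,nat_lit 6616230,nat_lit 1119031,nat_lit 82,nat_lit 3405,nat_lit 44236,nat_lit 205017,nat_lit 523424,nat_lit 1046513,nat_lit 1652701,nat_lit 2381539,nat_lit 3188718,nat_lit 3859531,nat_lit 4571634,nat_lit 5213644,nat_lit 5750538,nat_lit 6192650,nat_lit 3237312,nat_lit 98,nat_lit 4443,nat_lit 52920,nat_lit 237698,nat_lit 580252,nat_lit 1130990,nat_lit 1779259,nat_lit 2523409,nat_lit 3365842,nat_lit 3987785,nat_lit 4733147,nat_lit 5293829,nat_lit 2921475,nat_lit 116,nat_lit 5477,nat_lit 61035,nat_lit 266173,nat_lit 639156,nat_lit 1190824,nat_lit 1849315,nat_lit 2616782,nat_lit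 3458955,nat_lit 4078099,nat_lit 2366716,nat_lit 134,nat_lit 6552,nat_lit 69543,nat_lit 283752,nat_lit 691122,nat_lit 1235181,nat_lit 1902323,nat_lit 2662249,nat_lit 1751980,nat_lit 150,nat_lit 7523,nat_lit 75739,nat_lit 291970,nat_lit 722997,nat_lit 1255698,nat_lit 955595,nat_lit 161,nat_lit 8032,nat_lit 80185,nat_lit 299333,nat_lit 364351,nat_lit 167,nat_lit 7964,nat_lit 40980,nat_lit 84]
theorem chk205 : eqF (levelsSF 72 4722366482869645213696 1328165573307087716352 332041393326771929088 268435456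
    (mkTabSF 48 17 72 K) (mkTabSF 48 17 72 P) ks 5 w200) w205 = true := by decide +kernel
theorem inv205 : Inv 48 17 268435456 ks 205 w205 :=
  Inv.check (m := 200) (k := 5) setup hP hK hB hT1 hT2 inv200 chk205
end Crest.Agent.Lib.Bc.GridO.O48
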