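import Crest.Agent.Lib.Bc.Orbit.O48C205
/-! Row 163: levels 205 to 210 of the grid orbit. -/
set_option maxRecDepth 1000000
namespace Crest.Agent.Lib.Bc.GridO.O48
def w210 : List ℕ := [nat_lit 238,nat_lit 0,nat_lit 0,nat_lit 0,nat_lit 0,nat_lit 0,nat_lit 0,nat_lit 0,nat_lit 0,nat_lit 0,nat_lit 0,nat_lit 0,nat_lit 0,nat_lit 3,nat_lit 33,nat_lit 0,nat_lit 0,nat_lit 1,nat_lit 43,nat_lit 568,nat_lit 1538,nat_lit 1,nat_lit 0,nat_lit 9,nat_lit 280,nat_lit 2490,nat_lit 11988,nat_lit 17257,nat_lit 2,nat_lit 0,nat_lit 52,nat_lit 1125,nat_lit 7662,nat_lit 30955,nat_lit 79653,nat_lit 85386,nat_lit 4,nat_lit 2,nat_lit 213,nat_lit 3215,nat_lit 20034,nat_lit 63443,nat_lit 149923,nat_lit 297681,nat_lit 267460,nat_lit 8,nat_lit 9,nat_lit 692,nat_lit 7679,nat_lit 39455,nat_lit 115747,nat_lit 258906,nat_lit 457453,nat_lit 761627,nat_lit 571173,nat_lit 12,nat_lit 33,nat_lit 1643,nat_lit 15881,nat_lit 68177,nat_lit 183920,nat_lit 402855,nat_lit 672862,nat_lit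 1021868,nat_lit 1494456,nat_lit 1002077,nat_lit 18,nat_lit 87,nat_lit 3416,nat_lit 28670,nat_lit 108244,nat_lit 273551,nat_lit 553870,nat_lit 927553,nat_lit 1334967,nat_lit 1875574,nat_lit 2458374,nat_lit 1510110,nat_lit 25,nat_lit 202,nat_lit 6274,nat_lit 45190,nat_lit 160611,nat_lit 380695,nat_lit 720257,nat_lit 1194345,nat_lit 1673318,nat_lit 2273228,nat_lit 2921617,nat_lit 3570177,nat_lit 2079244,nat_lit 33,nat_lit 410,nat_lit 10337,nat_lit 66640,nat_lit 219527,nat_lit 504858,nat_lit 890618,nat_lit 1464057,nat_lit 2017891,nat_lit 2654846,nat_lit 3354700,nat_lit 4046472,nat_lit 4670241,nat_lit 2613637,nat_lit 42,nat_lit 739,nat_lit 15546,nat_lit 91370,nat_lit 284044,nat_lit 635010,nat_lit 1073758,nat_lit 1718426,nat_lit 2357398,nat_lit 3028006,nat_lit 3785532,nat_lit 4486295,nat_lit 5131236,nat_lit 5668582,nat_lit 3071268,nat_lit 53,nat_lit 1236,nat_lit 21992,nat_lit 119790,nat_lit 351803,nat_lit 765295,nat_lit 1259262,nat_lit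 1958468,nat_lit 2643228,nat_lit 3371922,nat_lit 4133975,nat_lit 4841770,nat_lit 5507775,nat_lit 6008635,nat_lit 6425578,nat_lit 3358676,nat_lit 66,nat_lit 1861,nat_lit 29158,nat_lit 149630,nat_lit 420093,nat_lit 885797,nat_lit 1440969,nat_lit 2171875,nat_lit 2950168,nat_lit 3618958,nat_lit 4448206,nat_lit 5108490,nat_lit 5781154,nat_lit 6276201,nat_lit 6643837,nat_lit 6843953,nat_lit 1157949,nat_lit 78,nat_lit 2619,nat_lit 36867,nat_lit 180969,nat_lit 481005,nat_lit 991366,nat_lit 1598525,nat_lit 2343192,nat_lit 3180670,nat_lit 3887430,nat_lit 4642167,nat_lit 5329947,nat_lit 5906976,nat_lit 6383063,nat_lit 3344577,nat_lit 93,nat_lit 3451,nat_lit 44416,nat_lit 211185,nat_lit 535635,nat_lit 1075676,nat_lit 1726518,nat_lit 2489738,nat_lit 3365514,nat_lit 4024467,nat_lit 4812626,nat_lit 5416352,nat_lit 3002795,nat_lit 108,nat_lit 4288,nat_lit 51509,nat_lit 237701,nat_lit 592535,nat_lit 1135432,nat_lit 1798220,nat_lit 2586336,nat_lit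 3463711,nat_lit 4119059,nat_lit 2407544,nat_lit 123,nat_lit 5166,nat_lit 59032,nat_lit 254251,nat_lit 642859,nat_lit 1179809,nat_lit 1852060,nat_lit 2633390,nat_lit 1755294,nat_lit 136,nat_lit 5963,nat_lit 64532,nat_lit 261922,nat_lit 673803,nat_lit 1200034,nat_lit 930867,nat_lit 146,nat_lit 6379,nat_lit 68465,nat_lit 268785,nat_lit 339776,nat_lit 151,nat_lit 6307,nat_lit 35019,nat_lit 76]
theorem chk210 : eqF (levelsSF 72 4722366482869645213696 1328165573307087716352 332041393326771929088 268435456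
    (mkTabSF 48 17 72 K) (mkTabSF 48 17 72 P) ks 5 w205) w210 = true := by decide +kernel
theorem inv210 : Inv 48 17 268435456 ks 210 w210 :=
  Inv.check (m := 205) (k := 5) setup hP hK hB hT1 hT2 inv205 chk210
end Crest.Agent.Lib.Bc.GridO.O48
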