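import Crest.Agent.Lib.Bc.Orbit.O48C210
/-! Row 163: levels 210 to 215 of the grid orbit. -/
set_option maxRecDepth 1000000
namespace Crest.Agent.Lib.Bc.GridO.O48
def w215 : List ℕ := [nat_lit 249,nat_lit 0,nat_lit 0,nat_lit 0,nat_lit 0,nat_lit 0,nat_lit 0,nat_lit 0,nat_lit 0,nat_lit 0,nat_lit 0,nat_lit 0,nat_lit 0,nat_lit 2,nat_lit 22,nat_lit 0,nat_lit 0,nat_lit 0,nat_lit 29,nat_lit 414,nat_lit 1184,nat_lit 1,nat_lit 0,nat_lit 6,nat_lit 200,nat_lit 1904,nat_lit 9669,nat_lit 14464,nat_lit 2,nat_lit 0,nat_lit 35,nat_lit 841,nat_lit 6091,nat_lit 25834,nat_lit 68784,nat_lit 75820,nat_lit 4,nat_lit 1,nat_lit 152,nat_lit 2490,nat_lit 16479,nat_lit 54382,nat_lit 132550,nat_lit 270063,nat_lit 247950,nat_lit 7,nat_lit 6,nat_lit 515,nat_lit 6127,nat_lit 33287,nat_lit 101413,nat_lit 233600,nat_lit 422065,nat_lit 716820,nat_lit 545965,nat_lit 12,nat_lit 23,nat_lit 1257,nat_lit 13006,nat_lit 58676,nat_lit 164010,nat_lit 369619,nat_lit 630141,nat_lit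 973223,nat_lit 1444445,nat_lit 979813,nat_lit 18,nat_lit 62,nat_lit 2678,nat_lit 23995,nat_lit 94755,nat_lit 247595,nat_lit 514979,nat_lit 879522,nat_lit 1285141,nat_lit 1829458,nat_lit 2424812,nat_lit 1501900,nat_lit 25,nat_lit 147,nat_lit 5018,nat_lit 38462,nat_lit 142628,nat_lit 348995,nat_lit 676699,nat_lit 1144062,nat_lit 1625214,nat_lit 2234855,nat_lit 2902188,nat_lit 3575175,nat_lit 2095090,nat_lit 33,nat_lit 306,nat_lit 8411,nat_lit 57476,nat_lit 197285,nat_lit 467782,nat_lit 843995,nat_lit 1414034,nat_lit 1974466,nat_lit 2627530,nat_lit 3351307,nat_lit 4074516,nat_lit 4730308,nat_lit 2659472,nat_lit 43,nat_lit 561,nat_lit 12826,nat_lit 79708,nat_lit 257819,nat_lit 593700,nat_lit 1025105,nat_lit 1670474,nat_lit 2320678,nat_lit 3013636,nat_lit 3799502,nat_lit 4536287,nat_lit 5218146,nat_lit 5789488,nat_lit 3146827,nat_lit 54,nat_lit 955,nat_lit 18359,nat_lit 105512,nat_lit 321967,nat_lit 720753,nat_lit 1209835,nat_lit 1914087,nat_lit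 2615161,nat_lit 3370363,nat_lit 4166044,nat_lit 4912309,nat_lit 5616714,nat_lit 6152724,nat_lit 6598596,nat_lit 3455112,nat_lit 66,nat_lit 1457,nat_lit 24573,nat_lit 132845,nat_lit 387155,nat_lit 839264,nat_lit 1391677,nat_lit 2131877,nat_lit 2931281,nat_lit 3629708,nat_lit 4495661,nat_lit 5196390,nat_lit 5908241,nat_lit 6436874,nat_lit 6831396,nat_lit 7047260,nat_lit 1192708,nat_lit 79,nat_lit 2072,nat_lit 31324,nat_lit 161781,nat_lit 445666,nat_lit 943738,nat_lit 1550197,nat_lit 2307288,nat_lit 3170439,nat_lit 3908800,nat_lit 4701585,nat_lit 5430800,nat_lit 6044473,nat_lit 6551881,nat_lit 3440073,nat_lit 92,nat_lit 2755,nat_lit 37975,nat_lit 189890,nat_lit 498282,nat_lit 1027661,nat_lit 1679177,nat_lit 2457718,nat_lit 3361977,nat_lit 4053666,nat_lit 4880080,nat_lit 5522893,nat_lit 3074363,nat_lit 106,nat_lit 3448,nat_lit 44254,nat_lit 214712,nat_lit 553322,nat_lit 1087193,nat_lit 1752140,nat_lit 2557013,nat_lit 3464641,nat_lit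 4152043,nat_lit 2442289,nat_lit 120,nat_lit 4179,nat_lit 50982,nat_lit 230352,nat_lit 602113,nat_lit 1131471,nat_lit 1806603,nat_lit 2605405,nat_lit 1756562,nat_lit 131,nat_lit 4847,nat_lit 55919,nat_lit 237550,nat_lit 632176,nat_lit 1151381,nat_lit 908471,nat_lit 140,nat_lit 5196,nat_lit 59436,nat_lit 243982,nat_lit 318967,nat_lit 145,nat_lit 5123,nat_lit 30422,nat_lit 73]
theorem chk215 : eqF (levelsSF 72 4722366482869645213696 1328165573307087716352 332041393326771929088 268435456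
    (mkTabSF 48 17 72 K) (mkTabSF 48 17 72 P) ks 5 w210) w215 = true := by decide +kernel
theorem inv215 : Inv 48 17 268435456 ks 215 w215 :=
  Inv.check (m := 210) (k := 5) setup hP hK hB hT1 hT2 inv210 chk215
end Crest.Agent.Lib.Bc.GridO.O48
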