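import Crest.Agent.Lib.Bc.Orbit.O48C215
/-! Row 163: levels 215 to 220 of the grid orbit. -/
set_option maxRecDepth 1000000
namespace Crest.Agent.Lib.Bc.GridO.O48
def w220 : List ℕ := [nat_lit 232,nat_lit 0,nat_lit 0,nat_lit 0,nat_lit 0,nat_lit 0,nat_lit 0,nat_lit 0,nat_lit 0,nat_lit 0,nat_lit 0,nat_lit 0,nat_lit 0,nat_lit 1,nat_lit 15,nat_lit 0,nat_lit 0,nat_lit 0,nat_lit 20,nat_lit 312,nat_lit 937,nat_lit 0,nat_lit 0,nat_lit 4,nat_lit 148,nat_lit 1500,nat_lit 7983,nat_lit 12355,nat_lit 2,nat_lit 0,nat_lit 25,nat_lit 649,nat_lit 4965,nat_lit 21986,nat_lit 60334,nat_lit 68172,nat_lit 4,nat_lit 1,nat_lit 113,nat_lit 1984,nat_lit 13846,nat_lit 47390,nat_lit 118722,nat_lit 247493,nat_lit 231638,nat_lit 7,nat_lit 4,nat_lit 396,nat_lit 5011,nat_lit 28604,nat_lit 90111,nat_lit 213036,nat_lit 392631,nat_lit 678712,nat_lit 524109,nat_lit 11,nat_lit 16,nat_lit 991,nat_lit 10886,nat_lit 51320,nat_lit 148030,nat_lit 342137,nat_lit 594012,nat_lit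 931251,nat_lit 1400381,nat_lit 959735,nat_lit 17,nat_lit 46,nat_lit 2156,nat_lit 20477,nat_lit 84135,nat_lit 226443,nat_lit 482365,nat_lit 838300,nat_lit 1241502,nat_lit 1788120,nat_lit 2393630,nat_lit 1493580,nat_lit 24,nat_lit 111,nat_lit 4114,nat_lit 33316,nat_lit 128263,nat_lit 322816,nat_lit 639743,nat_lit 1100344,nat_lit 1582466,nat_lit 2199678,nat_lit 2882921,nat_lit 3577046,nat_lit 2107782,nat_lit 32,nat_lit 235,nat_lit 7002,nat_lit 50375,nat_lit 179304,nat_lit 436814,nat_lit 804032,nat_lit 1370003,nat_lit 1935250,nat_lit 2601595,nat_lit 3345875,nat_lit 4096602,nat_lit 4780944,nat_lit 2698964,nat_lit 41,nat_lit 440,nat_lit 10809,nat_lit 70567,nat_lit 236399,nat_lit 558855,nat_lit 983016,nat_lit 1627792,nat_lit 2286860,nat_lit 2998724,nat_lit 3809233,nat_lit 4577861,nat_lit 5292837,nat_lit 5894942,nat_lit 3213270,nat_lit 51,nat_lit 759,nat_lit 15634,nat_lit 94212,nat_lit 297388,nat_lit 682875,nat_lit 1166706,nat_lit 1874127,nat_lit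 2588583,nat_lit 3366533,nat_lit 4191740,nat_lit 4972314,nat_lit 5711290,nat_lit 6279272,nat_lit 6751528,nat_lit 3540657,nat_lit 63,nat_lit 1172,nat_lit 21103,nat_lit 119452,nat_lit 359819,nat_lit 799413,nat_lit 1348327,nat_lit 2095442,nat_lit 2912485,nat_lit 3636693,nat_lit 4535020,nat_lit 5272028,nat_lit 6019291,nat_lit 6578531,nat_lit 6997650,nat_lit 7227997,nat_lit 1223620,nat_lit 75,nat_lit 1684,nat_lit 27095,nat_lit 146363,nat_lit 416173,nat_lit 902717,nat_lit 1507406,nat_lit 2274224,nat_lit 3159096,nat_lit 3925118,nat_lit 4751677,nat_lit 5518135,nat_lit 6165006,nat_lit 6701029,nat_lit 3524755,nat_lit 87,nat_lit 2256,nat_lit 33030,nat_lit 172680,nat_lit 466974,nat_lit 986123,nat_lit 1637039,nat_lit 2427878,nat_lit 3356420,nat_lit 4076923,nat_lit 4937345,nat_lit 5615390,nat_lit 3137173,nat_lit 100,nat_lit 2842,nat_lit 38658,nat_lit 196047,nat_lit 520320,nat_lit 1045345,nat_lit 1710964,nat_lit 2529428,nat_lit 3462992,nat_lit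 4178638,nat_lit 2471861,nat_lit 112,nat_lit 3463,nat_lit 44742,nat_lit 210891,nat_lit 567707,nat_lit 1089447,nat_lit 1765888,nat_lit 2578944,nat_lit 1756423,nat_lit 123,nat_lit 4033,nat_lit 49221,nat_lit 217682,nat_lit 596957,nat_lit 1109043,nat_lit 888390,nat_lit 130,nat_lit 4331,nat_lit 52403,nat_lit 223745,nat_lit 301350,nat_lit 135,nat_lit 4259,nat_lit 26838,nat_lit 68]
theorem chk220 : eqF (levelsSF 72 4722366482869645213696 1328165573307087716352 332041393326771929088 268435456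
    (mkTabSF 48 17 72 K) (mkTabSF 48 17 72 P) ks 5 w215) w220 = true := by decide +kernel
theorem inv220 : Inv 48 17 268435456 ks 220 w220 :=
  Inv.check (m := 215) (k := 5) setup hP hK hB hT1 hT2 inv215 chk220
end Crest.Agent.Lib.Bc.GridO.O48
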