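import Crest.Agent.Lib.Bc.Orbit.O48C220
/-! Row 163: levels 220 to 225 of the grid orbit. -/
set_option maxRecDepth 1000000
namespace Crest.Agent.Lib.Bc.GridO.O48
def w225 : List ℕ := [nat_lit 245,nat_lit 0,nat_lit 0,nat_lit 0,nat_lit 0,nat_lit 0,nat_lit 0,nat_lit 0,nat_lit 0,nat_lit 0,nat_lit 0,nat_lit 0,nat_lit 0,nat_lit 1,nat_lit 11,nat_lit 0,nat_lit 0,nat_lit 0,nat_lit 15,nat_lit 243,nat_lit 762,nat_lit 0,nat_lit 0,nat_lit 3,nat_lit 113,nat_lit 1213,nat_lit 6735,nat_lit 10741,nat_lit 1,nat_lit 0,nat_lit 18,nat_lit 516,nat_lit 4141,nat_lit 19051,nat_lit 53695,nat_lit 62011,nat_lit 3,nat_lit 0,nat_lit 87,nat_lit 1622,nat_lit 11863,nat_lit 41933,nat_lit 107629,nat_lit 228957,nat_lit 217969,nat_lit 6,nat_lit 3,nat_lit 314,nat_lit 4193,nat_lit 25001,nat_lit 81118,nat_lit 196232,nat_lit 368081,nat_lit 646298,nat_lit 505203,nat_lit 10,nat_lit 12,nat_lit 803,nat_lit 9297,nat_lit 45560,nat_lit 135114,nat_lit 319333,nat_lit 563434,nat_lit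 895100,nat_lit 1361735,nat_lit 941780,nat_lit 15,nat_lit 35,nat_lit 1780,nat_lit 17789,nat_lit 75695,nat_lit 209115,nat_lit 454964,nat_lit 802960,nat_lit 1203425,nat_lit 1751333,nat_lit 2365064,nat_lit 1485461,nat_lit 22,nat_lit 87,nat_lit 3451,nat_lit 29328,nat_lit 116701,nat_lit 301117,nat_lit 608374,nat_lit 1062436,nat_lit 1544700,nat_lit 2167793,nat_lit 2864397,nat_lit 3576777,nat_lit 2117968,nat_lit 30,nat_lit 187,nat_lit 5953,nat_lit 44808,nat_lit 164673,nat_lit 410885,nat_lit 769806,nat_lit 1331418,nat_lit 1900134,nat_lit 2577434,nat_lit 3339266,nat_lit 4114009,nat_lit 4823683,nat_lit 2732980,nat_lit 39,nat_lit 354,nat_lit 9289,nat_lit 63329,nat_lit 218814,nat_lit 529426,nat_lit 946677,nat_lit 1590030,nat_lit 2256090,nat_lit 2983941,nat_lit 3815826,nat_lit 4612498,nat_lit 5357018,nat_lit 5986784,nat_lit 3271564,nat_lit 49,nat_lit 619,nat_lit 13559,nat_lit 85188,nat_lit 277057,nat_lit 650654,nat_lit 1129188,nat_lit 1838433,nat_lit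 2563872,nat_lit 3361317,nat_lit 4212366,nat_lit 5023392,nat_lit 5793313,nat_lit 6390174,nat_lit 6886324,nat_lit 3616299,nat_lit 60,nat_lit 967,nat_lit 18439,nat_lit 108681,nat_lit 337059,nat_lit 765305,nat_lit 1310364,nat_lit 2062582,nat_lit 2894366,nat_lit 3640946,nat_lit 4567725,nat_lit 5337099,nat_lit 6116168,nat_lit 6703104,nat_lit 7144558,nat_lit 7388114,nat_lit 1251016,nat_lit 71,nat_lit 1401,nat_lit 23825,nat_lit 133887,nat_lit 391494,nat_lit 867432,nat_lit 1469714,nat_lit 2244142,nat_lit 3147384,nat_lit 3937547,nat_lit 4793958,nat_lit 5593703,nat_lit 6270461,nat_lit 6832433,nat_lit 3599612,nat_lit 83,nat_lit 1891,nat_lit 29186,nat_lit 158679,nat_lit 440675,nat_lit 950257,nat_lit 1599757,nat_lit 2400473,nat_lit 3349700,nat_lit 4095477,nat_lit 4986001,nat_lit 5695614,nat_lit 3192182,nat_lit 94,nat_lit 2395,nat_lit 34290,nat_lit 180801,nat_lit 492500,nat_lit 1009123,nat_lit 1674413,nat_lit 2503906,nat_lit 3459679,nat_lit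 4200124,nat_lit 2497048,nat_lit 106,nat_lit 2933,nat_lit 39849,nat_lit 194954,nat_lit 538619,nat_lit 1053006,nat_lit 1729676,nat_lit 2554368,nat_lit 1755355,nat_lit 115,nat_lit 3428,nat_lit 43954,nat_lit 201395,nat_lit 567129,nat_lit 1072296,nat_lit 870511,nat_lit 122,nat_lit 3687,nat_lit 46862,nat_lit 207142,nat_lit 286423,nat_lit 126,nat_lit 3617,nat_lit 24013,nat_lit 64]
theorem chk225 : eqF (levelsSF 72 4722366482869645213696 1328165573307087716352 332041393326771929088 268435456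
    (mkTabSF 48 17 72 K) (mkTabSF 48 17 72 P) ks 5 w220) w225 = true := by decide +kernel
theorem inv225 : Inv 48 17 268435456 ks 225 w225 :=
  Inv.check (m := 220) (k := 5) setup hP hK hB hT1 hT2 inv220 chk225
end Crest.Agent.Lib.Bc.GridO.O48
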