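import Crest.Agent.Lib.Bc.Orbit.O48C225
/-! Row 163: levels 225 to 230 of the grid orbit. -/
set_option maxRecDepth 1000000
namespace Crest.Agent.Lib.Bc.GridO.O48
def w230 : List ℕ := [nat_lit 235,nat_lit 0,nat_lit 0,nat_lit 0,nat_lit 0,nat_lit 0,nat_lit 0,nat_lit 0,nat_lit 0,nat_lit 0,nat_lit 0,nat_lit 0,nat_lit 0,nat_lit 0,nat_lit 8,nat_lit 0,nat_lit 0,nat_lit 0,nat_lit 11,nat_lit 194,nat_lit 635,nat_lit 0,nat_lit 0,nat_lit 2,nat_lit 90,nat_lit 1006,nat_lit 5794,nat_lit 9489,nat_lit 1,nat_lit 0,nat_lit 14,nat_lit 421,nat_lit 3528,nat_lit 16783,nat_lit 48427,nat_lit 57014,nat_lit 3,nat_lit 0,nat_lit 68,nat_lit 1357,nat_lit 10348,nat_lit 37628,nat_lit 98662,nat_lit 213664,nat_lit 206489,nat_lit 5,nat_lit 2,nat_lit 256,nat_lit 3582,nat_lit 22193,nat_lit 73902,nat_lit 182429,nat_lit 347547,nat_lit 618718,nat_lit 488879,nat_lit 9,nat_lit 9,nat_lit 667,nat_lit 8086,nat_lit 41004,nat_lit 124606,nat_lit 300347,nat_lit 537528,nat_lit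 864000,nat_lit 1327963,nat_lit 925828,nat_lit 14,nat_lit 27,nat_lit 1503,nat_lit 15709,nat_lit 68929,nat_lit 194849,nat_lit 431899,nat_lit 772681,nat_lit 1170298,nat_lit 1718785,nat_lit 2339178,nat_lit 1477743,nat_lit 21,nat_lit 69,nat_lit 2955,nat_lit 26202,nat_lit 107328,nat_lit 283066,nat_lit 581731,nat_lit 1029634,nat_lit 1511491,nat_lit 2139149,nat_lit 2846979,nat_lit 3575098,nat_lit 2126160,nat_lit 28,nat_lit 152,nat_lit 5158,nat_lit 40399,nat_lit 152701,nat_lit 389125,nat_lit 740508,nat_lit 1297724,nat_lit 1868903,nat_lit 2555250,nat_lit 3332095,nat_lit 4127746,nat_lit 4859798,nat_lit 2762267,nat_lit 37,nat_lit 293,nat_lit 8125,nat_lit 57545,nat_lit 204310,nat_lit 504541,nat_lit 915351,nat_lit 1556785,nat_lit 2228364,nat_lit 2969733,nat_lit 3820124,nat_lit 4641406,nat_lit 5412159,nat_lit 6066654,nat_lit 3322594,nat_lit 46,nat_lit 518,nat_lit 11957,nat_lit 77923,nat_lit 260175,nat_lit 623237,nat_lit 1096635,nat_lit 1806754,nat_lit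 2541218,nat_lit 3355354,nat_lit 4228956,nat_lit 5066894,nat_lit 5864377,nat_lit 6487158,nat_lit 7004807,nat_lit 3682978,nat_lit 57,nat_lit 816,nat_lit 16366,nat_lit 99955,nat_lit 318052,nat_lit 736126,nat_lit 1277235,nat_lit 2033184,nat_lit 2877296,nat_lit 3643247,nat_lit 4594956,nat_lit 5393063,nat_lit 6200544,nat_lit 6812380,nat_lit 7273978,nat_lit 7529491,nat_lit 1275215,nat_lit 67,nat_lit 1192,nat_lit 21267,nat_lit 123724,nat_lit 370794,nat_lit 837114,nat_lit 1436656,nat_lit 2217037,nat_lit 3135814,nat_lit 3946991,nat_lit 4829692,nat_lit 5659037,nat_lit 6362547,nat_lit 6947892,nat_lit 3665581,nat_lit 78,nat_lit 1618,nat_lit 26164,nat_lit 147224,nat_lit 418543,nat_lit 919335,nat_lit 1566936,nat_lit 2375593,nat_lit 3342433,nat_lit 4110308,nat_lit 5027375,nat_lit 5765120,nat_lit 3240262,nat_lit 89,nat_lit 2060,nat_lit 30842,nat_lit 168282,nat_lit 469013,nat_lit 977828,nat_lit 1642145,nat_lit 2480601,nat_lit 3455375,nat_lit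 4217525,nat_lit 2518513,nat_lit 99,nat_lit 2533,nat_lit 35972,nat_lit 181838,nat_lit 514000,nat_lit 1021473,nat_lit 1697655,nat_lit 2531859,nat_lit 1753705,nat_lit 108,nat_lit 2971,nat_lit 39771,nat_lit 187979,nat_lit 541846,nat_lit 1040476,nat_lit 854689,nat_lit 115,nat_lit 3199,nat_lit 42454,nat_lit 193457,nat_lit 273763,nat_lit 119,nat_lit 3132,nat_lit 21764,nat_lit 60]
theorem chk230 : eqF (levelsSF 72 4722366482869645213696 1328165573307087716352 332041393326771929088 268435456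
    (mkTabSF 48 17 72 K) (mkTabSF 48 17 72 P) ks 5 w225) w230 = true := by decide +kernel
theorem inv230 : Inv 48 17 268435456 ks 230 w230 :=
  Inv.check (m := 225) (k := 5) setup hP hK hB hT1 hT2 inv225 chk230
end Crest.Agent.Lib.Bc.GridO.O48
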