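import Crest.Agent.Lib.Bc.Orbit.O48C230
/-! Row 163: levels 230 to 235 of the grid orbit. -/
set_option maxRecDepth 1000000
namespace Crest.Agent.Lib.Bc.GridO.O48
def w235 : List ℕ := [nat_lit 230,nat_lit 0,nat_lit 0,nat_lit 0,nat_lit 0,nat_lit 0,nat_lit 0,nat_lit 0,nat_lit 0,nat_lit 0,nat_lit 0,nat_lit 0,nat_lit 0,nat_lit 0,nat_lit 7,nat_lit 0,nat_lit 0,nat_lit 0,nat_lit 9,nat_lit 160,nat_lit 540,nat_lit 0,nat_lit 0,nat_lit 1,nat_lit 73,nat_lit 854,nat_lit 5075,nat_lit 8507,nat_lit 1,nat_lit 0,nat_lit 11,nat_lit 352,nat_lit 3063,nat_lit 15007,nat_lit 44206,nat_lit 52933,nat_lit 3,nat_lit 0,nat_lit 56,nat_lit 1161,nat_lit 9173,nat_lit 34196,nat_lit 91361,nat_lit 200986,nat_lit 196823,nat_lit 5,nat_lit 1,nat_lit 213,nat_lit 3117,nat_lit 19980,nat_lit 68064,nat_lit 171029,nat_lit 330318,nat_lit 595226,nat_lit 474796,nat_lit 9,nat_lit 7,nat_lit 566,nat_lit 7151,nat_lit 37362,nat_lit 115999,nat_lit 284480,nat_lit 515546,nat_lit 837256,nat_lit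 1298526,nat_lit 911726,nat_lit 14,nat_lit 22,nat_lit 1295,nat_lit 14078,nat_lit 63459,nat_lit 183044,nat_lit 412437,nat_lit 746735,nat_lit 1141534,nat_lit 1690112,nat_lit 2315918,nat_lit 1470545,nat_lit 20,nat_lit 57,nat_lit 2577,nat_lit 23723,nat_lit 99676,nat_lit 267993,nat_lit 559073,nat_lit 1001284,nat_lit 1482390,nat_lit 2113592,nat_lit 2830864,nat_lit 3572544,nat_lit 2132769,nat_lit 27,nat_lit 127,nat_lit 4546,nat_lit 36871,nat_lit 142846,nat_lit 370813,nat_lit 715421,nat_lit 1268373,nat_lit 1841270,nat_lit 2535102,nat_lit 3324788,nat_lit 4138612,nat_lit 4890369,nat_lit 2787486,nat_lit 36,nat_lit 248,nat_lit 7222,nat_lit 52882,nat_lit 192286,nat_lit 483459,nat_lit 888362,nat_lit 1527622,nat_lit 2203563,nat_lit 2956370,nat_lit 3822767,nat_lit 4665594,nat_lit 5459548,nat_lit 6136049,nat_lit 3367192,nat_lit 45,nat_lit 443,nat_lit 10704,nat_lit 72027,nat_lit 246099,nat_lit 599881,nat_lit 1068431,nat_lit 1778771,nat_lit 2520669,nat_lit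 3349093,nat_lit 4242340,nat_lit 5103984,nat_lit 5925915,nat_lit 6571843,nat_lit 7108734,nat_lit 3741614,nat_lit 56,nat_lit 703,nat_lit 14734,nat_lit 92835,nat_lit 302124,nat_lit 711152,nat_lit 1248387,nat_lit 2007041,nat_lit 2861480,nat_lit 3644184,nat_lit 4617687,nat_lit 5441204,nat_lit 6273954,nat_lit 6908061,nat_lit 7387724,nat_lit 7653997,nat_lit 1296533,nat_lit 66,nat_lit 1034,nat_lit 19240,nat_lit 115391,nat_lit 353380,nat_lit 811067,nat_lit 1407748,nat_lit 2192790,nat_lit 3124716,nat_lit 3954156,nat_lit 4859942,nat_lit 5715506,nat_lit 6442850,nat_lit 7049134,nat_lit 3723578,nat_lit 77,nat_lit 1412,nat_lit 23760,nat_lit 137794,nat_lit 399870,nat_lit 892691,nat_lit 1538142,nat_lit 2353198,nat_lit 3335042,nat_lit 4122197,nat_lit 5062601,nat_lit 5825312,nat_lit 3282223,nat_lit 88,nat_lit 1804,nat_lit 28091,nat_lit 157944,nat_lit 449141,nat_lit 950813,nat_lit 1613770,nat_lit 2459526,nat_lit 3450555,nat_lit 4231661,nat_lit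 2536825,nat_lit 98,nat_lit 2227,nat_lit 32869,nat_lit 170983,nat_lit 493124,nat_lit 994214,nat_lit 1669457,nat_lit 2511453,nat_lit 1751726,nat_lit 106,nat_lit 2619,nat_lit 36415,nat_lit 176869,nat_lit 520378,nat_lit 1012952,nat_lit 840745,nat_lit 113,nat_lit 2824,nat_lit 38913,nat_lit 182116,nat_lit 263010,nat_lit 116,nat_lit 2759,nat_lit 19957,nat_lit 58]
theorem chk235 : eqF (levelsSF 72 4722366482869645213696 1328165573307087716352 332041393326771929088 268435456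
    (mkTabSF 48 17 72 K) (mkTabSF 48 17 72 P) ks 5 w230) w235 = true := by decide +kernel
theorem inv235 : Inv 48 17 268435456 ks 235 w235 :=
  Inv.check (m := 230) (k := 5) setup hP hK hB hT1 hT2 inv230 chk235
end Crest.Agent.Lib.Bc.GridO.O48
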