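import Crest.Agent.Lib.Bc.Orbit.O48C235
/-! Row 163: levels 235 to 240 of the grid orbit. -/
set_option maxRecDepth 1000000
namespace Crest.Agent.Lib.Bc.GridO.O48
def w240 : List ℕ := [nat_lit 231,nat_lit 0,nat_lit 0,nat_lit 0,nat_lit 0,nat_lit 0,nat_lit 0,nat_lit 0,nat_lit 0,nat_lit 0,nat_lit 0,nat_lit 0,nat_lit 0,nat_lit 0,nat_lit 5,nat_lit 0,nat_lit 0,nat_lit 0,nat_lit 7,nat_lit 135,nat_lit 469,nat_lit 0,nat_lit 0,nat_lit 1,nat_lit 61,nat_lit 738,nat_lit 4517,nat_lit 7726,nat_lit 1,nat_lit 0,nat_lit 9,nat_lit 301,nat_lit 2705,nat_lit 13601,nat_lit 40794,nat_lit 49579,nat_lit 3,nat_lit 0,nat_lit 46,nat_lit 1011,nat_lit 8251,nat_lit 31434,nat_lit 85377,nat_lit 190428,nat_lit 188663,nat_lit 5,nat_lit 1,nat_lit 182,nat_lit 2759,nat_lit 18215,nat_lit 63304,nat_lit 161568,nat_lit 315819,nat_lit 575196,nat_lit 462654,nat_lit 9,nat_lit 6,nat_lit 491,nat_lit 6418,nat_lit 34425,nat_lit 108909,nat_lit 271174,nat_lit 496866,nat_lit 814261,nat_lit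 1272918,nat_lit 899310,nat_lit 14,nat_lit 18,nat_lit 1136,nat_lit 12784,nat_lit 59003,nat_lit 173228,nat_lit 395979,nat_lit 724496,nat_lit 1116594,nat_lit 1664942,nat_lit 2295157,nat_lit 1463927,nat_lit 21,nat_lit 48,nat_lit 2286,nat_lit 21738,nat_lit 93389,nat_lit 255361,nat_lit 539779,nat_lit 976803,nat_lit 1456958,nat_lit 2090915,nat_lit 2816141,nat_lit 3569499,nat_lit 2138118,nat_lit 29,nat_lit 109,nat_lit 4069,nat_lit 34024,nat_lit 134689,nat_lit 355362,nat_lit 693932,nat_lit 1242853,nat_lit 1816922,nat_lit 2516961,nat_lit 3317633,nat_lit 4147231,nat_lit 4916288,nat_lit 2809204,nat_lit 38,nat_lit 214,nat_lit 6511,nat_lit 49093,nat_lit 182275,nat_lit 465566,nat_lit 865120,nat_lit 1502113,nat_lit 2181510,nat_lit 2944006,nat_lit 3824232,nat_lit 4685879,nat_lit 5500285,nat_lit 6196289,nat_lit 3406108,nat_lit 47,nat_lit 385,nat_lit 9711,nat_lit 67208,nat_lit 234318,nat_lit 579964,nat_lit 1044024,nat_lit 1754151,nat_lit 2502186,nat_lit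 3342842,nat_lit 4253173,nat_lit 5135639,nat_lit 5979176,nat_lit 6645681,nat_lit 7199713,nat_lit 3793059,nat_lit 59,nat_lit 617,nat_lit 13435,nat_lit 86987,nat_lit 288733,nat_lit 689768,nat_lit 1223314,nat_lit 1983909,nat_lit 2847012,nat_lit 3644191,nat_lit 4636709,nat_lit 5482622,nat_lit 6337756,nat_lit 6991689,nat_lit 7487472,nat_lit 7763374,nat_lit 1315266,nat_lit 69,nat_lit 912,nat_lit 17619,nat_lit 108519,nat_lit 338691,nat_lit 788689,nat_lit 1382531,nat_lit 2171229,nat_lit 3114296,nat_lit 3959585,nat_lit 4885592,nat_lit 5764296,nat_lit 6512788,nat_lit 7137737,nat_lit 3774453,nat_lit 81,nat_lit 1252,nat_lit 21831,nat_lit 129989,nat_lit 384078,nat_lit 869743,nat_lit 1512954,nat_lit 2333182,nat_lit 3327813,nat_lit 4131759,nat_lit 5092625,nat_lit 5877408,nat_lit 3318793,nat_lit 92,nat_lit 1606,nat_lit 25876,nat_lit 149363,nat_lit 432295,nat_lit 927508,nat_lit 1588897,nat_lit 2440617,nat_lit 3445554,nat_lit 4243185,nat_lit 2552463,nat_lit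 102,nat_lit 1989,nat_lit 30363,nat_lit 161959,nat_lit 475393,nat_lit 970670,nat_lit 1644710,nat_lit 2493108,nat_lit 1749595,nat_lit 111,nat_lit 2345,nat_lit 33699,nat_lit 167626,nat_lit 502123,nat_lit 989166,nat_lit 828501,nat_lit 117,nat_lit 2530,nat_lit 36045,nat_lit 172676,nat_lit 253863,nat_lit 121,nat_lit 2469,nat_lit 18492,nat_lit 61]
theorem chk240 : eqF (levelsSF 72 4722366482869645213696 1328165573307087716352 332041393326771929088 268435456
    (mkTabSF 48 17 72 K) (mkTabSF 48 17 72 P) ks 5 w235) w240 = true := by decide +kernel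
theorem inv240 : Inv 48 17 268435456 ks 240 w240 :=
  Inv.check (m := 235) (k := 5) setup hP hK hB hT1 hT2 inv235 chk240
end Crest.Agent.Lib.Bc.GridO.O48
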