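import Crest.Agent.Lib.Bc.GridRegrid
import Crest.Agent.Lib.Bc.Orbit.O36C180
/-! Row 163: the data of a grid orbit at `b = 4`, `λ = -1/2`: grid size 48, weights in units of `2^-28`, from level 180. -/
set_option maxRecDepth 1000000
namespace Crest.Agent.Lib.Bc.GridO.O48
def ks : List ℕ := [nat_lit 17,nat_lit 18,nat_lit 34,nat_lit 35,nat_lit 36,nat_lit 51,nat_lit 52,nat_lit 53,nat_lit 54,nat_lit 68,nat_lit 69,nat_lit 70,nat_lit 71,nat_lit 72,nat_lit 85,nat_lit 86,nat_lit 87,nat_lit 88,nat_lit 89,nat_lit 90,nat_lit 102,nat_lit 103,nat_lit 104,nat_lit 105,nat_lit 106,nat_lit 107,nat_lit 108,nat_lit 119,nat_lit 120,nat_lit 121,nat_lit 122,nat_lit 123,nat_lit 124,nat_lit 125,nat_lit 126,nat_lit 136,nat_lit 137,nat_lit 138,nat_lit 139,nat_lit 140,nat_lit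 141,nat_lit 142,nat_lit 143,nat_lit 144,nat_lit 153,nat_lit 154,nat_lit 155,nat_lit 156,nat_lit 157,nat_lit 158,nat_lit 159,nat_lit 160,nat_lit 161,nat_lit 162,nat_lit 170,nat_lit 171,nat_lit 172,nat_lit 173,nat_lit 174,nat_lit 175,nat_lit 176,nat_lit 177,nat_lit 178,nat_lit 179,nat_lit 180,nat_lit 187,nat_lit 188,nat_lit 189,nat_lit 190,nat_lit 191,nat_lit 192,nat_lit 193,nat_lit 194,nat_lit 195,nat_lit 196,nat_lit 197,nat_lit 198,nat_lit 204,nat_lit 205,nat_lit 206,nat_lit 207,nat_lit 208,nat_lit 209,nat_lit 210,nat_lit 211,nat_lit 212,nat_lit 213,nat_lit 214,nat_lit 215,nat_lit 216,nat_lit 221,nat_lit 222,nat_lit 223,nat_lit 224,nat_lit 225,nat_lit 226,nat_lit 227,nat_lit 228,nat_lit 229,nat_lit 230,nat_lit 231,nat_lit 232,nat_lit 233,nat_lit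 234,nat_lit 238,nat_lit 239,nat_lit 240,nat_lit 241,nat_lit 242,nat_lit 243,nat_lit 244,nat_lit 245,nat_lit 246,nat_lit 247,nat_lit 248,nat_lit 249,nat_lit 250,nat_lit 251,nat_lit 252,nat_lit 255,nat_lit 256,nat_lit 257,nat_lit 258,nat_lit 259,nat_lit 260,nat_lit 261,nat_lit 262,nat_lit 263,nat_lit 264,nat_lit 265,nat_lit 266,nat_lit 267,nat_lit 268,nat_lit 269,nat_lit 270,nat_lit 272,nat_lit 273,nat_lit 274,nat_lit 275,nat_lit 276,nat_lit 277,nat_lit 278,nat_lit 279,nat_lit 280,nat_lit 281,nat_lit 282,nat_lit 283,nat_lit 284,nat_lit 285,nat_lit 286,nat_lit 287,nat_lit 288,nat_lit 289,nat_lit 290,nat_lit 291,nat_lit 292,nat_lit 293,nat_lit 294,nat_lit 295,nat_lit 296,nat_lit 297,nat_lit 298,nat_lit 299,nat_lit 300,nat_lit 301,nat_lit 302,nat_lit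 303,nat_lit 306,nat_lit 307,nat_lit 308,nat_lit 309,nat_lit 310,nat_lit 311,nat_lit 312,nat_lit 313,nat_lit 314,nat_lit 315,nat_lit 316,nat_lit 317,nat_lit 318,nat_lit 323,nat_lit 324,nat_lit 325,nat_lit 326,nat_lit 327,nat_lit 328,nat_lit 329,nat_lit 330,nat_lit 331,nat_lit 332,nat_lit 333,nat_lit 340,nat_lit 341,nat_lit 342,nat_lit 343,nat_lit 344,nat_lit 345,nat_lit 346,nat_lit 347,nat_lit 348,nat_lit 357,nat_lit 358,nat_lit 359,nat_lit 360,nat_lit 361,nat_lit 362,nat_lit 363,nat_lit 374,nat_lit 375,nat_lit 376,nat_lit 377,nat_lit 378,nat_lit 391,nat_lit 392,nat_lit 393,nat_lit 408]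
def P : List Pt := [⟨nat_lit 48,nat_lit 0,nat_lit 0⟩,⟨nat_lit 47,nat_lit 1,nat_lit 0⟩,⟨nat_lit 46,nat_lit 1,nat_lit 1⟩,⟨nat_lit 46,nat_lit 2,nat_lit 0⟩,⟨nat_lit 45,nat_lit 2,nat_lit 1⟩,⟨nat_lit 44,nat_lit 2,nat_lit 2⟩,⟨nat_lit 45,nat_lit 3,nat_lit 0⟩,⟨nat_lit 44,nat_lit 3,nat_lit 1⟩,⟨nat_lit 43,nat_lit 3,nat_lit 2⟩,⟨nat_lit 42,nat_lit 3,nat_lit 3⟩,⟨nat_lit 44,nat_lit 4,nat_lit 0⟩,⟨nat_lit 43,nat_lit 4,nat_lit 1⟩,⟨nat_lit 42,nat_lit 4,nat_lit 2⟩,⟨nat_lit 41,nat_lit 4,nat_lit 3⟩,⟨nat_lit 40,nat_lit 4,nat_lit 4⟩,⟨nat_lit 43,nat_lit 5,nat_lit 0⟩,⟨nat_lit 42,nat_lit 5,nat_lit 1⟩,⟨nat_lit 41,nat_lit 5,nat_lit 2⟩,⟨nat_lit 40,nat_lit 5,nat_lit 3⟩,⟨nat_lit 39,nat_lit 5,nat_lit 4⟩,⟨nat_lit 38,nat_lit 5,nat_lit 5⟩,⟨nat_lit 42,nat_lit 6,nat_lit 0⟩,⟨nat_lit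 41,nat_lit 6,nat_lit 1⟩,⟨nat_lit 40,nat_lit 6,nat_lit 2⟩,⟨nat_lit 39,nat_lit 6,nat_lit 3⟩,⟨nat_lit 38,nat_lit 6,nat_lit 4⟩,⟨nat_lit 37,nat_lit 6,nat_lit 5⟩,⟨nat_lit 36,nat_lit 6,nat_lit 6⟩,⟨nat_lit 41,nat_lit 7,nat_lit 0⟩,⟨nat_lit 40,nat_lit 7,nat_lit 1⟩,⟨nat_lit 39,nat_lit 7,nat_lit 2⟩,⟨nat_lit 38,nat_lit 7,nat_lit 3⟩,⟨nat_lit 37,nat_lit 7,nat_lit 4⟩,⟨nat_lit 36,nat_lit 7,nat_lit 5⟩,⟨nat_lit 35,nat_lit 7,nat_lit 6⟩,⟨nat_lit 34,nat_lit 7,nat_lit 7⟩,⟨nat_lit 40,nat_lit 8,nat_lit 0⟩,⟨nat_lit 39,nat_lit 8,nat_lit 1⟩,⟨nat_lit 38,nat_lit 8,nat_lit 2⟩,⟨nat_lit 37,nat_lit 8,nat_lit 3⟩,⟨nat_lit 36,nat_lit 8,nat_lit 4⟩,⟨nat_lit 35,nat_lit 8,nat_lit 5⟩,⟨nat_lit 34,nat_lit 8,nat_lit 6⟩,⟨nat_lit 33,nat_lit 8,nat_lit 7⟩,⟨nat_lit 32,nat_lit 8,nat_lit 8⟩,⟨nat_lit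 39,nat_lit 9,nat_lit 0⟩,⟨nat_lit 38,nat_lit 9,nat_lit 1⟩,⟨nat_lit 37,nat_lit 9,nat_lit 2⟩,⟨nat_lit 36,nat_lit 9,nat_lit 3⟩,⟨nat_lit 35,nat_lit 9,nat_lit 4⟩,⟨nat_lit 34,nat_lit 9,nat_lit 5⟩,⟨nat_lit 33,nat_lit 9,nat_lit 6⟩,⟨nat_lit 32,nat_lit 9,nat_lit 7⟩,⟨nat_lit 31,nat_lit 9,nat_lit 8⟩,⟨nat_lit 30,nat_lit 9,nat_lit 9⟩,⟨nat_lit 38,nat_lit 10,nat_lit 0⟩,⟨nat_lit 37,nat_lit 10,nat_lit 1⟩,⟨nat_lit 36,nat_lit 10,nat_lit 2⟩,⟨nat_lit 35,nat_lit 10,nat_lit 3⟩,⟨nat_lit 34,nat_lit 10,nat_lit 4⟩,⟨nat_lit 33,nat_lit 10,nat_lit 5⟩,⟨nat_lit 32,nat_lit 10,nat_lit 6⟩,⟨nat_lit 31,nat_lit 10,nat_lit 7⟩,⟨nat_lit 30,nat_lit 10,nat_lit 8⟩,⟨nat_lit 29,nat_lit 10,nat_lit 9⟩,⟨nat_lit 28,nat_lit 10,nat_lit 10⟩,⟨nat_lit 37,nat_lit 11,nat_lit 0⟩,⟨nat_lit 36,nat_lit 11,nat_lit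 1⟩,⟨nat_lit 35,nat_lit 11,nat_lit 2⟩,⟨nat_lit 34,nat_lit 11,nat_lit 3⟩,⟨nat_lit 33,nat_lit 11,nat_lit 4⟩,⟨nat_lit 32,nat_lit 11,nat_lit 5⟩,⟨nat_lit 31,nat_lit 11,nat_lit 6⟩,⟨nat_lit 30,nat_lit 11,nat_lit 7⟩,⟨nat_lit 29,nat_lit 11,nat_lit 8⟩,⟨nat_lit 28,nat_lit 11,nat_lit 9⟩,⟨nat_lit 27,nat_lit 11,nat_lit 10⟩,⟨nat_lit 26,nat_lit 11,nat_lit 11⟩,⟨nat_lit 36,nat_lit 12,nat_lit 0⟩,⟨nat_lit 35,nat_lit 12,nat_lit 1⟩,⟨nat_lit 34,nat_lit 12,nat_lit 2⟩,⟨nat_lit 33,nat_lit 12,nat_lit 3⟩,⟨nat_lit 32,nat_lit 12,nat_lit 4⟩,⟨nat_lit 31,nat_lit 12,nat_lit 5⟩,⟨nat_lit 30,nat_lit 12,nat_lit 6⟩,⟨nat_lit 29,nat_lit 12,nat_lit 7⟩,⟨nat_lit 28,nat_lit 12,nat_lit 8⟩,⟨nat_lit 27,nat_lit 12,nat_lit 9⟩,⟨nat_lit 26,nat_lit 12,nat_lit 10⟩,⟨nat_lit 25,nat_lit 12,nat_lit 11⟩,⟨nat_lit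 24,nat_lit 12,nat_lit 12⟩,⟨nat_lit 35,nat_lit 13,nat_lit 0⟩,⟨nat_lit 34,nat_lit 13,nat_lit 1⟩,⟨nat_lit 33,nat_lit 13,nat_lit 2⟩,⟨nat_lit 32,nat_lit 13,nat_lit 3⟩,⟨nat_lit 31,nat_lit 13,nat_lit 4⟩,⟨nat_lit 30,nat_lit 13,nat_lit 5⟩,⟨nat_lit 29,nat_lit 13,nat_lit 6⟩,⟨nat_lit 28,nat_lit 13,nat_lit 7⟩,⟨nat_lit 27,nat_lit 13,nat_lit 8⟩,⟨nat_lit 26,nat_lit 13,nat_lit 9⟩,⟨nat_lit 25,nat_lit 13,nat_lit 10⟩,⟨nat_lit 24,nat_lit 13,nat_lit 11⟩,⟨nat_lit 23,nat_lit 13,nat_lit 12⟩,⟨nat_lit 22,nat_lit 13,nat_lit 13⟩,⟨nat_lit 34,nat_lit 14,nat_lit 0⟩,⟨nat_lit 33,nat_lit 14,nat_lit 1⟩,⟨nat_lit 32,nat_lit 14,nat_lit 2⟩,⟨nat_lit 31,nat_lit 14,nat_lit 3⟩,⟨nat_lit 30,nat_lit 14,nat_lit 4⟩,⟨nat_lit 29,nat_lit 14,nat_lit 5⟩,⟨nat_lit 28,nat_lit 14,nat_lit 6⟩,⟨nat_lit 27,nat_lit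 14,nat_lit 7⟩,⟨nat_lit 26,nat_lit 14,nat_lit 8⟩,⟨nat_lit 25,nat_lit 14,nat_lit 9⟩,⟨nat_lit 24,nat_lit 14,nat_lit 10⟩,⟨nat_lit 23,nat_lit 14,nat_lit 11⟩,⟨nat_lit 22,nat_lit 14,nat_lit 12⟩,⟨nat_lit 21,nat_lit 14,nat_lit 13⟩,⟨nat_lit 20,nat_lit 14,nat_lit 14⟩,⟨nat_lit 33,nat_lit 15,nat_lit 0⟩,⟨nat_lit 32,nat_lit 15,nat_lit 1⟩,⟨nat_lit 31,nat_lit 15,nat_lit 2⟩,⟨nat_lit 30,nat_lit 15,nat_lit 3⟩,⟨nat_lit 29,nat_lit 15,nat_lit 4⟩,⟨nat_lit 28,nat_lit 15,nat_lit 5⟩,⟨nat_lit 27,nat_lit 15,nat_lit 6⟩,⟨nat_lit 26,nat_lit 15,nat_lit 7⟩,⟨nat_lit 25,nat_lit 15,nat_lit 8⟩,⟨nat_lit 24,nat_lit 15,nat_lit 9⟩,⟨nat_lit 23,nat_lit 15,nat_lit 10⟩,⟨nat_lit 22,nat_lit 15,nat_lit 11⟩,⟨nat_lit 21,nat_lit 15,nat_lit 12⟩,⟨nat_lit 20,nat_lit 15,nat_lit 13⟩,⟨nat_lit 19,nat_lit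 15,nat_lit 14⟩,⟨nat_lit 18,nat_lit 15,nat_lit 15⟩,⟨nat_lit 32,nat_lit 16,nat_lit 0⟩,⟨nat_lit 31,nat_lit 16,nat_lit 1⟩,⟨nat_lit 30,nat_lit 16,nat_lit 2⟩,⟨nat_lit 29,nat_lit 16,nat_lit 3⟩,⟨nat_lit 28,nat_lit 16,nat_lit 4⟩,⟨nat_lit 27,nat_lit 16,nat_lit 5⟩,⟨nat_lit 26,nat_lit 16,nat_lit 6⟩,⟨nat_lit 25,nat_lit 16,nat_lit 7⟩,⟨nat_lit 24,nat_lit 16,nat_lit 8⟩,⟨nat_lit 23,nat_lit 16,nat_lit 9⟩,⟨nat_lit 22,nat_lit 16,nat_lit 10⟩,⟨nat_lit 21,nat_lit 16,nat_lit 11⟩,⟨nat_lit 20,nat_lit 16,nat_lit 12⟩,⟨nat_lit 19,nat_lit 16,nat_lit 13⟩,⟨nat_lit 18,nat_lit 16,nat_lit 14⟩,⟨nat_lit 17,nat_lit 16,nat_lit 15⟩,⟨nat_lit 16,nat_lit 16,nat_lit 16⟩,⟨nat_lit 31,nat_lit 17,nat_lit 0⟩,⟨nat_lit 30,nat_lit 17,nat_lit 1⟩,⟨nat_lit 29,nat_lit 17,nat_lit 2⟩,⟨nat_lit 28,nat_lit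 17,nat_lit 3⟩,⟨nat_lit 27,nat_lit 17,nat_lit 4⟩,⟨nat_lit 26,nat_lit 17,nat_lit 5⟩,⟨nat_lit 25,nat_lit 17,nat_lit 6⟩,⟨nat_lit 24,nat_lit 17,nat_lit 7⟩,⟨nat_lit 23,nat_lit 17,nat_lit 8⟩,⟨nat_lit 22,nat_lit 17,nat_lit 9⟩,⟨nat_lit 21,nat_lit 17,nat_lit 10⟩,⟨nat_lit 20,nat_lit 17,nat_lit 11⟩,⟨nat_lit 19,nat_lit 17,nat_lit 12⟩,⟨nat_lit 18,nat_lit 17,nat_lit 13⟩,⟨nat_lit 17,nat_lit 17,nat_lit 14⟩,⟨nat_lit 30,nat_lit 18,nat_lit 0⟩,⟨nat_lit 29,nat_lit 18,nat_lit 1⟩,⟨nat_lit 28,nat_lit 18,nat_lit 2⟩,⟨nat_lit 27,nat_lit 18,nat_lit 3⟩,⟨nat_lit 26,nat_lit 18,nat_lit 4⟩,⟨nat_lit 25,nat_lit 18,nat_lit 5⟩,⟨nat_lit 24,nat_lit 18,nat_lit 6⟩,⟨nat_lit 23,nat_lit 18,nat_lit 7⟩,⟨nat_lit 22,nat_lit 18,nat_lit 8⟩,⟨nat_lit 21,nat_lit 18,nat_lit 9⟩,⟨nat_lit 20,nat_lit 18,nat_lit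 10⟩,⟨nat_lit 19,nat_lit 18,nat_lit 11⟩,⟨nat_lit 18,nat_lit 18,nat_lit 12⟩,⟨nat_lit 29,nat_lit 19,nat_lit 0⟩,⟨nat_lit 28,nat_lit 19,nat_lit 1⟩,⟨nat_lit 27,nat_lit 19,nat_lit 2⟩,⟨nat_lit 26,nat_lit 19,nat_lit 3⟩,⟨nat_lit 25,nat_lit 19,nat_lit 4⟩,⟨nat_lit 24,nat_lit 19,nat_lit 5⟩,⟨nat_lit 23,nat_lit 19,nat_lit 6⟩,⟨nat_lit 22,nat_lit 19,nat_lit 7⟩,⟨nat_lit 21,nat_lit 19,nat_lit 8⟩,⟨nat_lit 20,nat_lit 19,nat_lit 9⟩,⟨nat_lit 19,nat_lit 19,nat_lit 10⟩,⟨nat_lit 28,nat_lit 20,nat_lit 0⟩,⟨nat_lit 27,nat_lit 20,nat_lit 1⟩,⟨nat_lit 26,nat_lit 20,nat_lit 2⟩,⟨nat_lit 25,nat_lit 20,nat_lit 3⟩,⟨nat_lit 24,nat_lit 20,nat_lit 4⟩,⟨nat_lit 23,nat_lit 20,nat_lit 5⟩,⟨nat_lit 22,nat_lit 20,nat_lit 6⟩,⟨nat_lit 21,nat_lit 20,nat_lit 7⟩,⟨nat_lit 20,nat_lit 20,nat_lit 8⟩,⟨nat_lit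 27,nat_lit 21,nat_lit 0⟩,⟨nat_lit 26,nat_lit 21,nat_lit 1⟩,⟨nat_lit 25,nat_lit 21,nat_lit 2⟩,⟨nat_lit 24,nat_lit 21,nat_lit 3⟩,⟨nat_lit 23,nat_lit 21,nat_lit 4⟩,⟨nat_lit 22,nat_lit 21,nat_lit 5⟩,⟨nat_lit 21,nat_lit 21,nat_lit 6⟩,⟨nat_lit 26,nat_lit 22,nat_lit 0⟩,⟨nat_lit 25,nat_lit 22,nat_lit 1⟩,⟨nat_lit 24,nat_lit 22,nat_lit 2⟩,⟨nat_lit 23,nat_lit 22,nat_lit 3⟩,⟨nat_lit 22,nat_lit 22,nat_lit 4⟩,⟨nat_lit 25,nat_lit 23,nat_lit 0⟩,⟨nat_lit 24,nat_lit 23,nat_lit 1⟩,⟨nat_lit 23,nat_lit 23,nat_lit 2⟩,⟨nat_lit 24,nat_lit 24,nat_lit 0⟩]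
def K : List Pt := [⟨nat_lit 0,nat_lit 48,nat_lit 48⟩,⟨nat_lit 1,nat_lit 47,nat_lit 48⟩,⟨nat_lit 2,nat_lit 47,nat_lit 47⟩,⟨nat_lit 2,nat_lit 46,nat_lit 48⟩,⟨nat_lit 3,nat_lit 46,nat_lit 47⟩,⟨nat_lit 4,nat_lit 46,nat_lit 46⟩,⟨nat_lit 3,nat_lit 45,nat_lit 48⟩,⟨nat_lit 4,nat_lit 45,nat_lit 47⟩,⟨nat_lit 5,nat_lit 45,nat_lit 46⟩,⟨nat_lit 6,nat_lit 45,nat_lit 45⟩,⟨nat_lit 4,nat_lit 44,nat_lit 48⟩,⟨nat_lit 5,nat_lit 44,nat_lit 47⟩,⟨nat_lit 6,nat_lit 44,nat_lit 46⟩,⟨nat_lit 7,nat_lit 44,nat_lit 45⟩,⟨nat_lit 8,nat_lit 44,nat_lit 44⟩,⟨nat_lit 5,nat_lit 43,nat_lit 48⟩,⟨nat_lit 6,nat_lit 43,nat_lit 47⟩,⟨nat_lit 7,nat_lit 43,nat_lit 46⟩,⟨nat_lit 8,nat_lit 43,nat_lit 45⟩,⟨nat_lit 9,nat_lit 43,nat_lit 44⟩,⟨nat_lit 10,nat_lit 43,nat_lit 43⟩,⟨nat_lit 6,nat_lit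 42,nat_lit 48⟩,⟨nat_lit 7,nat_lit 42,nat_lit 47⟩,⟨nat_lit 8,nat_lit 42,nat_lit 46⟩,⟨nat_lit 9,nat_lit 42,nat_lit 45⟩,⟨nat_lit 10,nat_lit 42,nat_lit 44⟩,⟨nat_lit 11,nat_lit 42,nat_lit 43⟩,⟨nat_lit 12,nat_lit 42,nat_lit 42⟩,⟨nat_lit 7,nat_lit 41,nat_lit 48⟩,⟨nat_lit 8,nat_lit 41,nat_lit 47⟩,⟨nat_lit 9,nat_lit 41,nat_lit 46⟩,⟨nat_lit 10,nat_lit 41,nat_lit 45⟩,⟨nat_lit 11,nat_lit 41,nat_lit 44⟩,⟨nat_lit 12,nat_lit 41,nat_lit 43⟩,⟨nat_lit 13,nat_lit 41,nat_lit 42⟩,⟨nat_lit 14,nat_lit 41,nat_lit 41⟩,⟨nat_lit 8,nat_lit 40,nat_lit 48⟩,⟨nat_lit 9,nat_lit 40,nat_lit 47⟩,⟨nat_lit 10,nat_lit 40,nat_lit 46⟩,⟨nat_lit 11,nat_lit 40,nat_lit 45⟩,⟨nat_lit 12,nat_lit 40,nat_lit 44⟩,⟨nat_lit 13,nat_lit 40,nat_lit 43⟩,⟨nat_lit 14,nat_lit 40,nat_lit 42⟩,⟨nat_lit 15,nat_lit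 40,nat_lit 41⟩,⟨nat_lit 16,nat_lit 40,nat_lit 40⟩,⟨nat_lit 9,nat_lit 39,nat_lit 48⟩,⟨nat_lit 10,nat_lit 39,nat_lit 47⟩,⟨nat_lit 11,nat_lit 39,nat_lit 46⟩,⟨nat_lit 12,nat_lit 39,nat_lit 45⟩,⟨nat_lit 13,nat_lit 39,nat_lit 44⟩,⟨nat_lit 14,nat_lit 39,nat_lit 43⟩,⟨nat_lit 15,nat_lit 39,nat_lit 42⟩,⟨nat_lit 16,nat_lit 39,nat_lit 41⟩,⟨nat_lit 17,nat_lit 39,nat_lit 40⟩,⟨nat_lit 18,nat_lit 39,nat_lit 39⟩,⟨nat_lit 10,nat_lit 38,nat_lit 48⟩,⟨nat_lit 11,nat_lit 38,nat_lit 47⟩,⟨nat_lit 12,nat_lit 38,nat_lit 46⟩,⟨nat_lit 13,nat_lit 38,nat_lit 45⟩,⟨nat_lit 14,nat_lit 38,nat_lit 44⟩,⟨nat_lit 15,nat_lit 38,nat_lit 43⟩,⟨nat_lit 16,nat_lit 38,nat_lit 42⟩,⟨nat_lit 17,nat_lit 38,nat_lit 41⟩,⟨nat_lit 18,nat_lit 38,nat_lit 40⟩,⟨nat_lit 19,nat_lit 38,nat_lit 39⟩,⟨nat_lit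 20,nat_lit 38,nat_lit 38⟩,⟨nat_lit 11,nat_lit 37,nat_lit 48⟩,⟨nat_lit 12,nat_lit 37,nat_lit 47⟩,⟨nat_lit 13,nat_lit 37,nat_lit 46⟩,⟨nat_lit 14,nat_lit 37,nat_lit 45⟩,⟨nat_lit 15,nat_lit 37,nat_lit 44⟩,⟨nat_lit 16,nat_lit 37,nat_lit 43⟩,⟨nat_lit 17,nat_lit 37,nat_lit 42⟩,⟨nat_lit 18,nat_lit 37,nat_lit 41⟩,⟨nat_lit 19,nat_lit 37,nat_lit 40⟩,⟨nat_lit 20,nat_lit 37,nat_lit 39⟩,⟨nat_lit 21,nat_lit 37,nat_lit 38⟩,⟨nat_lit 22,nat_lit 37,nat_lit 37⟩,⟨nat_lit 12,nat_lit 36,nat_lit 48⟩,⟨nat_lit 13,nat_lit 36,nat_lit 47⟩,⟨nat_lit 14,nat_lit 36,nat_lit 46⟩,⟨nat_lit 15,nat_lit 36,nat_lit 45⟩,⟨nat_lit 16,nat_lit 36,nat_lit 44⟩,⟨nat_lit 17,nat_lit 36,nat_lit 43⟩,⟨nat_lit 18,nat_lit 36,nat_lit 42⟩,⟨nat_lit 19,nat_lit 36,nat_lit 41⟩,⟨nat_lit 20,nat_lit 36,nat_lit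 40⟩,⟨nat_lit 21,nat_lit 36,nat_lit 39⟩,⟨nat_lit 22,nat_lit 36,nat_lit 38⟩,⟨nat_lit 23,nat_lit 36,nat_lit 37⟩,⟨nat_lit 24,nat_lit 36,nat_lit 36⟩,⟨nat_lit 13,nat_lit 35,nat_lit 48⟩,⟨nat_lit 14,nat_lit 35,nat_lit 47⟩,⟨nat_lit 15,nat_lit 35,nat_lit 46⟩,⟨nat_lit 16,nat_lit 35,nat_lit 45⟩,⟨nat_lit 17,nat_lit 35,nat_lit 44⟩,⟨nat_lit 18,nat_lit 35,nat_lit 43⟩,⟨nat_lit 19,nat_lit 35,nat_lit 42⟩,⟨nat_lit 20,nat_lit 35,nat_lit 41⟩,⟨nat_lit 21,nat_lit 35,nat_lit 40⟩,⟨nat_lit 22,nat_lit 35,nat_lit 39⟩,⟨nat_lit 23,nat_lit 35,nat_lit 38⟩,⟨nat_lit 24,nat_lit 35,nat_lit 37⟩,⟨nat_lit 25,nat_lit 35,nat_lit 36⟩,⟨nat_lit 26,nat_lit 35,nat_lit 35⟩,⟨nat_lit 14,nat_lit 34,nat_lit 48⟩,⟨nat_lit 15,nat_lit 34,nat_lit 47⟩,⟨nat_lit 16,nat_lit 34,nat_lit 46⟩,⟨nat_lit 17,nat_lit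 34,nat_lit 45⟩,⟨nat_lit 18,nat_lit 34,nat_lit 44⟩,⟨nat_lit 19,nat_lit 34,nat_lit 43⟩,⟨nat_lit 20,nat_lit 34,nat_lit 42⟩,⟨nat_lit 21,nat_lit 34,nat_lit 41⟩,⟨nat_lit 22,nat_lit 34,nat_lit 40⟩,⟨nat_lit 23,nat_lit 34,nat_lit 39⟩,⟨nat_lit 24,nat_lit 34,nat_lit 38⟩,⟨nat_lit 25,nat_lit 34,nat_lit 37⟩,⟨nat_lit 26,nat_lit 34,nat_lit 36⟩,⟨nat_lit 27,nat_lit 34,nat_lit 35⟩,⟨nat_lit 28,nat_lit 34,nat_lit 34⟩,⟨nat_lit 15,nat_lit 33,nat_lit 48⟩,⟨nat_lit 16,nat_lit 33,nat_lit 47⟩,⟨nat_lit 17,nat_lit 33,nat_lit 46⟩,⟨nat_lit 18,nat_lit 33,nat_lit 45⟩,⟨nat_lit 19,nat_lit 33,nat_lit 44⟩,⟨nat_lit 20,nat_lit 33,nat_lit 43⟩,⟨nat_lit 21,nat_lit 33,nat_lit 42⟩,⟨nat_lit 22,nat_lit 33,nat_lit 41⟩,⟨nat_lit 23,nat_lit 33,nat_lit 40⟩,⟨nat_lit 24,nat_lit 33,nat_lit 39⟩,⟨nat_lit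 25,nat_lit 33,nat_lit 38⟩,⟨nat_lit 26,nat_lit 33,nat_lit 37⟩,⟨nat_lit 27,nat_lit 33,nat_lit 36⟩,⟨nat_lit 28,nat_lit 33,nat_lit 35⟩,⟨nat_lit 29,nat_lit 33,nat_lit 34⟩,⟨nat_lit 30,nat_lit 33,nat_lit 33⟩,⟨nat_lit 16,nat_lit 32,nat_lit 48⟩,⟨nat_lit 17,nat_lit 32,nat_lit 47⟩,⟨nat_lit 18,nat_lit 32,nat_lit 46⟩,⟨nat_lit 19,nat_lit 32,nat_lit 45⟩,⟨nat_lit 20,nat_lit 32,nat_lit 44⟩,⟨nat_lit 21,nat_lit 32,nat_lit 43⟩,⟨nat_lit 22,nat_lit 32,nat_lit 42⟩,⟨nat_lit 23,nat_lit 32,nat_lit 41⟩,⟨nat_lit 24,nat_lit 32,nat_lit 40⟩,⟨nat_lit 25,nat_lit 32,nat_lit 39⟩,⟨nat_lit 26,nat_lit 32,nat_lit 38⟩,⟨nat_lit 27,nat_lit 32,nat_lit 37⟩,⟨nat_lit 28,nat_lit 32,nat_lit 36⟩,⟨nat_lit 29,nat_lit 32,nat_lit 35⟩,⟨nat_lit 30,nat_lit 32,nat_lit 34⟩,⟨nat_lit 31,nat_lit 32,nat_lit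 33⟩,⟨nat_lit 32,nat_lit 32,nat_lit 32⟩,⟨nat_lit 17,nat_lit 31,nat_lit 48⟩,⟨nat_lit 18,nat_lit 31,nat_lit 47⟩,⟨nat_lit 19,nat_lit 31,nat_lit 46⟩,⟨nat_lit 20,nat_lit 31,nat_lit 45⟩,⟨nat_lit 21,nat_lit 31,nat_lit 44⟩,⟨nat_lit 22,nat_lit 31,nat_lit 43⟩,⟨nat_lit 23,nat_lit 31,nat_lit 42⟩,⟨nat_lit 24,nat_lit 31,nat_lit 41⟩,⟨nat_lit 25,nat_lit 31,nat_lit 40⟩,⟨nat_lit 26,nat_lit 31,nat_lit 39⟩,⟨nat_lit 27,nat_lit 31,nat_lit 38⟩,⟨nat_lit 28,nat_lit 31,nat_lit 37⟩,⟨nat_lit 29,nat_lit 31,nat_lit 36⟩,⟨nat_lit 30,nat_lit 31,nat_lit 35⟩,⟨nat_lit 31,nat_lit 31,nat_lit 34⟩,⟨nat_lit 18,nat_lit 30,nat_lit 48⟩,⟨nat_lit 19,nat_lit 30,nat_lit 47⟩,⟨nat_lit 20,nat_lit 30,nat_lit 46⟩,⟨nat_lit 21,nat_lit 30,nat_lit 45⟩,⟨nat_lit 22,nat_lit 30,nat_lit 44⟩,⟨nat_lit 23,nat_lit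 30,nat_lit 43⟩,⟨nat_lit 24,nat_lit 30,nat_lit 42⟩,⟨nat_lit 25,nat_lit 30,nat_lit 41⟩,⟨nat_lit 26,nat_lit 30,nat_lit 40⟩,⟨nat_lit 27,nat_lit 30,nat_lit 39⟩,⟨nat_lit 28,nat_lit 30,nat_lit 38⟩,⟨nat_lit 29,nat_lit 30,nat_lit 37⟩,⟨nat_lit 30,nat_lit 30,nat_lit 36⟩,⟨nat_lit 19,nat_lit 29,nat_lit 48⟩,⟨nat_lit 20,nat_lit 29,nat_lit 47⟩,⟨nat_lit 21,nat_lit 29,nat_lit 46⟩,⟨nat_lit 22,nat_lit 29,nat_lit 45⟩,⟨nat_lit 23,nat_lit 29,nat_lit 44⟩,⟨nat_lit 24,nat_lit 29,nat_lit 43⟩,⟨nat_lit 25,nat_lit 29,nat_lit 42⟩,⟨nat_lit 26,nat_lit 29,nat_lit 41⟩,⟨nat_lit 27,nat_lit 29,nat_lit 40⟩,⟨nat_lit 28,nat_lit 29,nat_lit 39⟩,⟨nat_lit 29,nat_lit 29,nat_lit 38⟩,⟨nat_lit 20,nat_lit 28,nat_lit 48⟩,⟨nat_lit 21,nat_lit 28,nat_lit 47⟩,⟨nat_lit 22,nat_lit 28,nat_lit 46⟩,⟨nat_lit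 23,nat_lit 28,nat_lit 45⟩,⟨nat_lit 24,nat_lit 28,nat_lit 44⟩,⟨nat_lit 25,nat_lit 28,nat_lit 43⟩,⟨nat_lit 26,nat_lit 28,nat_lit 42⟩,⟨nat_lit 27,nat_lit 28,nat_lit 41⟩,⟨nat_lit 28,nat_lit 28,nat_lit 40⟩,⟨nat_lit 21,nat_lit 27,nat_lit 48⟩,⟨nat_lit 22,nat_lit 27,nat_lit 47⟩,⟨nat_lit 23,nat_lit 27,nat_lit 46⟩,⟨nat_lit 24,nat_lit 27,nat_lit 45⟩,⟨nat_lit 25,nat_lit 27,nat_lit 44⟩,⟨nat_lit 26,nat_lit 27,nat_lit 43⟩,⟨nat_lit 27,nat_lit 27,nat_lit 42⟩,⟨nat_lit 22,nat_lit 26,nat_lit 48⟩,⟨nat_lit 23,nat_lit 26,nat_lit 47⟩,⟨nat_lit 24,nat_lit 26,nat_lit 46⟩,⟨nat_lit 25,nat_lit 26,nat_lit 45⟩,⟨nat_lit 26,nat_lit 26,nat_lit 44⟩,⟨nat_lit 23,nat_lit 25,nat_lit 48⟩,⟨nat_lit 24,nat_lit 25,nat_lit 47⟩,⟨nat_lit 25,nat_lit 25,nat_lit 46⟩,⟨nat_lit 24,nat_lit 24,nat_lit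 48⟩]
theorem hP0 : O36.eqPts P (ptsOf 48 17 ks) = true := by decide +kernel
theorem hK0 : O36.eqPts K (P.map (tiltPt 48)) = true := by decide +kernel
theorem hP : P = ptsOf 48 17 ks := O36.eqPts_eq _ _ hP0
theorem hK : K = P.map (tiltPt 48) := O36.eqPts_eq _ _ hK0
theorem hnodup : ks.Nodup := by decide +kernel
theorem hvalid : ∀ k ∈ ks, k < 425 ∧ Valid 48 17 k := by
  have : ∀ k ∈ ks, k < 425 ∧ k / 17 + k % 17 ≤ 48 := by decide +kernel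
  exact this
theorem setup : Setup 48 17 72 425 268435456 ks :=
  ⟨by norm_num, by norm_num, by norm_num, by norm_num, by norm_num, hnodup, hvalid⟩
theorem hB : 4722366482869645213696 = 2 ^ 72 := by norm_num
theorem hT1 : 1328165573307087716352 = 2 * (2 * 48) * (2 * 48) * 268435456 * 268435456 := by norm_num
theorem hT2 : 332041393326771929088 = 2 * 48 * 48 * 268435456 * 268435456 := by norm_num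
def w180 : List ℕ := [nat_lit 216,nat_lit 0,nat_lit 0,nat_lit 0,nat_lit 0,nat_lit 0,nat_lit 0,nat_lit 0,nat_lit 4,nat_lit 2,nat_lit 0,nat_lit 3,nat_lit 106,nat_lit 210,nat_lit 2362,nat_lit 1,nat_lit 20,nat_lit 20,nat_lit 1865,nat_lit 16899,nat_lit 17850,nat_lit 2,nat_lit 20,nat_lit 1081,nat_lit 3962,nat_lit 36590,nat_lit 35700,nat_lit 88705,nat_lit 3,nat_lit 297,nat_lit 3962,nat_lit 3962,nat_lit 56280,nat_lit 177410,nat_lit 195497,nat_lit 97748,nat_lit 14,nat_lit 1210,nat_lit 12767,nat_lit 24324,nat_lit 186761,nat_lit 335918,nat_lit 505925,nat_lit 675932,nat_lit 868033,nat_lit 24,nat_lit 1814,nat_lit 1814,nat_lit 51959,nat_lit 229352,nat_lit 277881,nat_lit 277881,nat_lit 985808,nat_lit 1573745,nat_lit 545631,nat_lit 44,nat_lit 1814,nat_lit 30081,nat_lit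 47229,nat_lit 292417,nat_lit 277881,nat_lit 904476,nat_lit 675798,nat_lit 1769226,nat_lit 1091263,nat_lit 1347954,nat_lit 64,nat_lit 8202,nat_lit 47229,nat_lit 47229,nat_lit 355481,nat_lit 823143,nat_lit 675798,nat_lit 675798,nat_lit 1964707,nat_lit 2695908,nat_lit 1657413,nat_lit 828706,nat_lit 238,nat_lit 15571,nat_lit 82126,nat_lit 148681,nat_lit 770500,nat_lit 1069404,nat_lit 1399547,nat_lit 1729690,nat_lit 3600052,nat_lit 3146570,nat_lit 3497796,nat_lit 3849023,nat_lit 3294302,nat_lit 318,nat_lit 12907,nat_lit 12907,nat_lit 216084,nat_lit 674718,nat_lit 658787,nat_lit 658787,nat_lit 2080138,nat_lit 2812324,nat_lit 1776872,nat_lit 1776872,nat_lit 4317108,nat_lit 4858458,nat_lit 1335271,nat_lit 442,nat_lit 12907,nat_lit 127945,nat_lit 142434,nat_lit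 756838,nat_lit 658787,nat_lit 1815648,nat_lit 1210049,nat_lit 2974731,nat_lit 1776872,nat_lit 4121337,nat_lit 2324857,nat_lit 5019740,nat_lit 2670542,nat_lit 2815004,nat_lit 566,nat_lit 39806,nat_lit 142434,nat_lit 142434,nat_lit 838958,nat_lit 1551159,nat_lit 1210049,nat_lit 1210049,nat_lit 3137138,nat_lit 3925566,nat_lit 2324857,nat_lit 2324857,nat_lit 5181022,nat_lit 5630008,nat_lit 2953649,nat_lit 1476824,nat_lit 1422,nat_lit 55106,nat_lit 203717,nat_lit 352328,nat_lit 1491212,nat_lit 1758915,nat_lit 2229911,nat_lit 2700906,nat_lit 5202594,nat_lit 4151673,nat_lit 4544843,nat_lit 4938013,nat_lit 8142063,nat_lit 5838006,nat_lit 5935069,nat_lit 6032132,nat_lit 1536394,nat_lit 1425,nat_lit 35573,nat_lit 35573,nat_lit 413792,nat_lit 1117370,nat_lit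 954779,nat_lit 954779,nat_lit 2934847,nat_lit 3673327,nat_lit 2201194,nat_lit 2201194,nat_lit 5044143,nat_lit 5521059,nat_lit 2939596,nat_lit 1469798,nat_lit 1709,nat_lit 35573,nat_lit 250126,nat_lit 238773,nat_lit 1160295,nat_lit 954779,nat_lit 2487324,nat_lit 1539469,nat_lit 3750190,nat_lit 2201194,nat_lit 4763405,nat_lit 2590126,nat_lit 2760529,nat_lit 1993,nat_lit 86460,nat_lit 238773,nat_lit 238773,nat_lit 1203220,nat_lit 2039800,nat_lit 1539469,nat_lit 1539469,nat_lit 3827054,nat_lit 4482668,nat_lit 1295063,nat_lit 3845,nat_lit 100704,nat_lit 312997,nat_lit 525290,nat_lit 1891825,nat_lit 2112978,nat_lit 2638632,nat_lit 3164287,nat_lit 2884883,nat_lit 3030,nat_lit 54868,nat_lit 54868,nat_lit 560401,nat_lit 1285646,nat_lit 1063750,nat_lit 531875,nat_lit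 3036,nat_lit 54868,nat_lit 335390,nat_lit 284556,nat_lit 642823,nat_lit 3043,nat_lit 110380,nat_lit 142278,nat_lit 2225]
theorem hstart : roundL 72 (36 * 268435456) 268435456 (regridAcc 48 17 72 (ptsOf 36 13 O36.ks) O36.w180 0) ks = w180 := by decide +kernel
theorem inv180 : Inv 48 17 268435456 ks 180 w180 :=
  Inv.regrid setup O36.inv180 (by norm_num) hstart
end Crest.Agent.Lib.Bc.GridO.O48
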